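import Mathlib

/-!
Definitions for heat-bath dynamics of the zero-field Sherrington-Kirkpatrick model.
-/

namespace Vale.Agent.P150

open MeasureTheory ProbabilityTheory

noncomputable section

/-- The configuration space: `true` is spin `+1`, `false` is spin `-1`. -/
abbrev Cube (n : ℕ) := Fin n → Bool

/-- The value of a spin. -/
def spin (b : Bool) : ℝ := if b then 1 else -1

/-- The disorder space: one coupling for each unordered pair; diagonal ones are never used. -/
abbrev Disorder (n : ℕ) := Sym2 (Fin n) → ℝ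

/-- Independent standard Gaussian couplings. -/
def disorderLaw (n : ℕ) : Measure (Disorder n) :=
  Measure.pi fun _ : Sym2 (Fin n) => gaussianReal 0 1

/-- `∑_{i<j} g_{ij} x_i x_j`. -/
def energy {n : ℕ} (g : Disorder n) (x : Cube n) : ℝ :=
  ∑ p ∈ (Finset.univ : Finset (Fin n × Fin n)).filter (fun p => p.1 < p.2),
    g s(p.1, p.2) * spin (x p.1) * spin (x p.2)

/-- The probability vector proportional to `exp (a * energy g x)`. -/
def gibbsWith {n : ℕ} (a : ℝ) (g : Disorder n) (x : Cube n) : ℝ :=
  Real.exp (a * energy g x) / ∑ y, Real.exp (a * energy g y)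

/-- The Sherrington-Kirkpatrick Gibbs measure at inverse temperature `β`. -/
def gibbs {n : ℕ} (β : ℝ) (g : Disorder n) : Cube n → ℝ :=
  gibbsWith (β / Real.sqrt n) g

/-- `x` with spin `i` flipped. -/
def flipAt {n : ℕ} (i : Fin n) (x : Cube n) : Cube n := Function.update x i (!x i)

/-- The conditional probability, given the other spins, of the flipped value of spin `i`. -/
def flipProb {n : ℕ} (μ : Cube n → ℝ) (i : Fin n) (x : Cube n) : ℝ :=
  μ (flipAt i x) / (μ x + μ (flipAt i x))

/-- The generator `∑_i (Q_i - I)` of heat-bath dynamics, as a matrix. -/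
def generator {n : ℕ} (μ : Cube n → ℝ) : Matrix (Cube n) (Cube n) ℝ := fun x y =>
  ∑ i, flipProb μ i x * ((if y = flipAt i x then 1 else 0) - (if y = x then 1 else 0))

/-- The Dirichlet form `⟨f, -L f⟩_μ` of heat-bath dynamics. -/
def dirichlet {n : ℕ} (μ : Cube n → ℝ) (f : Cube n → ℝ) : ℝ :=
  (1 / 2) * ∑ x, ∑ i, μ x * flipProb μ i x * (f (flipAt i x) - f x) ^ 2

/-- The variance of `f` under `μ`. -/
def variance {n : ℕ} (μ : Cube n → ℝ) (f : Cube n → ℝ) : ℝ :=
  ∑ x, μ x * (f x - ∑ y, μ y * f y) ^ 2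

/-- The spectral gap is at least `c`. -/
def HasGap {n : ℕ} (μ : Cube n → ℝ) (c : ℝ) : Prop :=
  ∀ f : Cube n → ℝ, c * variance μ f ≤ dirichlet μ f

/-- At time `t` every start is within total variation distance `1/4` of `μ`. -/
def MixedAt {n : ℕ} (μ : Cube n → ℝ) (t : ℝ) : Prop :=
  ∀ x, (1 / 2) * ∑ y, |NormedSpace.exp (t • generator μ) x y - μ y| ≤ 1 / 4

end

end Vale.Agent.P150
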