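import Mathlib

/-!
Expectations of exponentials and linear forms for independent standard Gaussians.
-/

namespace Vale.Agent.P150

open MeasureTheory ProbabilityTheory Finset Real

noncomputable section

variable {ι : Type*} [Fintype ι]

/-- Independent standard Gaussians indexed by `ι`. -/
abbrev gauss (ι : Type*) [Fintype ι] : Measure (ι → ℝ) :=
  Measure.pi fun _ : ι => gaussianReal 0 1

/-- Integrable with the given integral. -/
def HasInt (f : (ι → ℝ) → ℝ) (v : ℝ) : Prop :=
  Integrable f (gauss ι) ∧ ∫ ξ, f ξ ∂gauss ι = v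

theorem HasInt.of_eq {f g : (ι → ℝ) → ℝ} {v w : ℝ} (h : HasInt f v) (hfg : ∀ ξ, g ξ = f ξ)
    (hvw : w = v) : HasInt g w := by
  rw [show g = f from funext hfg, hvw]; exact h

theorem HasInt.const (c : ℝ) : HasInt (fun _ : ι → ℝ => c) c :=
  ⟨integrable_const c, by simp⟩

theorem HasInt.const_mul {f : (ι → ℝ) → ℝ} {v : ℝ} (h : HasInt f v) (c : ℝ) :
    HasInt (fun ξ => c * f ξ) (c * v) :=
  ⟨h.1.const_mul c, by rw [integral_const_mul, h.2]⟩

theorem HasInt.add {f g : (ι → ℝ) → ℝ} {v w : ℝ} (h : HasInt f v) (h' : HasInt g w) :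
    HasInt (fun ξ => f ξ + g ξ) (v + w) :=
  ⟨h.1.add h'.1, by rw [integral_add h.1 h'.1, h.2, h'.2]⟩

theorem HasInt.sub {f g : (ι → ℝ) → ℝ} {v w : ℝ} (h : HasInt f v) (h' : HasInt g w) :
    HasInt (fun ξ => f ξ - g ξ) (v - w) :=
  ⟨h.1.sub h'.1, by rw [integral_sub h.1 h'.1, h.2, h'.2]⟩

theorem HasInt.sum {κ : Type*} (s : Finset κ) {f : κ → (ι → ℝ) → ℝ} {v : κ → ℝ}
    (h : ∀ k ∈ s, HasInt (f k) (v k)) :
    HasInt (fun ξ => ∑ k ∈ s, f k ξ) (∑ k ∈ s, v k) :=
  ⟨integrable_finsetSum s fun k hk => (h k hk).1, by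
    rw [integral_finsetSum s fun k hk => (h k hk).1]
    exact Finset.sum_congr rfl fun k hk => (h k hk).2⟩

theorem integrable_exp_gauss (c : ℝ) :
    Integrable (fun x : ℝ => exp (c * x)) (gaussianReal 0 1) :=
  integrable_exp_mul_gaussianReal c

theorem integral_exp_gauss (c : ℝ) :
    ∫ x : ℝ, exp (c * x) ∂gaussianReal 0 1 = exp (c ^ 2 / 2) := by
  have := congrFun (mgf_id_gaussianReal (μ := (0 : ℝ)) (v := 1)) c
  simpa [mgf] using this

theorem integrable_mul_exp_gauss (c : ℝ) :
    Integrable (fun x : ℝ => x * exp (c * x)) (gaussianReal 0 1) := by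
  have h := ProbabilityTheory.integrable_pow_mul_exp_of_mem_interior_integrableExpSet
    (X := id) (μ := gaussianReal 0 1) (v := c) (by simp) 1
  simpa using h

theorem integral_mul_exp_gauss (c : ℝ) :
    ∫ x : ℝ, x * exp (c * x) ∂gaussianReal 0 1 = c * exp (c ^ 2 / 2) := by
  have h := deriv_mgf (X := id) (μ := gaussianReal 0 1) (t := c) (by simp)
  rw [mgf_id_gaussianReal] at h
  have hd : HasDerivAt (fun t : ℝ => exp ((0 : ℝ) * t + ((1 : NNReal) : ℝ) * t ^ 2 / 2))
      (c * exp (c ^ 2 / 2)) c := by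
    have h1 : HasDerivAt (fun t : ℝ => t ^ 2 / 2) c c := by
      have := (hasDerivAt_pow 2 c).div_const 2
      refine this.congr_deriv ?_
      ring
    have := h1.exp
    simp only [zero_mul, NNReal.coe_one, one_mul, zero_add]
    exact this.congr_deriv (by ring)
  rw [hd.deriv] at h
  simpa using h.symm

theorem hasInt_exp (c : ι → ℝ) :
    HasInt (fun ξ => exp (∑ i, c i * ξ i)) (exp ((∑ i, c i ^ 2) / 2)) := by
  refine ⟨?_, ?_⟩
  · simp only [exp_sum]
    exact Integrable.fintype_prod_dep (f := fun i x => exp (c i * x)) fun i =>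
      integrable_exp_gauss (c i)
  · simp only [exp_sum, sum_div]
    rw [integral_fintype_prod_eq_prod (f := fun i x => exp (c i * x))]
    simp [integral_exp_gauss]

theorem hasInt_coord_exp (c : ι → ℝ) (j : ι) :
    HasInt (fun ξ => ξ j * exp (∑ i, c i * ξ i)) (c j * exp ((∑ i, c i ^ 2) / 2)) := by
  classical
  set F : ι → ℝ → ℝ := fun i x => (if i = j then x else 1) * exp (c i * x) with hF
  have hprod : ∀ ξ : ι → ℝ, ξ j * exp (∑ i, c i * ξ i) = ∏ i, F i (ξ i) := by
    intro ξ
    simp only [hF, prod_mul_distrib, exp_sum]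
    rw [Finset.prod_ite_eq']
    simp
  refine ⟨?_, ?_⟩
  · simp only [hprod]
    refine Integrable.fintype_prod_dep fun i => ?_
    by_cases h : i = j
    · simpa [hF, h] using integrable_mul_exp_gauss (c j)
    · simpa [hF, h] using integrable_exp_gauss (c i)
  · simp only [hprod]
    rw [integral_fintype_prod_eq_prod (f := F), sum_div, exp_sum]
    have hint : ∀ i, ∫ x, F i x ∂gaussianReal 0 1 =
        (if i = j then c i else 1) * exp (c i ^ 2 / 2) := by
      intro i
      by_cases h : i = j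
      · simp [hF, h, integral_mul_exp_gauss]
      · simp [hF, h, integral_exp_gauss]
    simp only [hint, prod_mul_distrib, Finset.prod_ite_eq', mem_univ, if_true]

theorem hasInt_coord_mul [DecidableEq ι] (i j : ι) :
    HasInt (fun ξ => ξ i * ξ j) (if i = j then 1 else 0) := by
  set F : ι → ℝ → ℝ := fun k x => (if k = i then x else 1) * (if k = j then x else 1) with hF
  have hprod : ∀ ξ : ι → ℝ, ξ i * ξ j = ∏ k, F k (ξ k) := by
    intro ξ
    simp only [hF, prod_mul_distrib, Finset.prod_ite_eq', mem_univ, if_true]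
  have hid : Integrable (fun x : ℝ => x) (gaussianReal 0 1) :=
    (memLp_id_gaussianReal 1).integrable le_rfl
  have hsq : Integrable (fun x : ℝ => x * x) (gaussianReal 0 1) := by
    simpa [sq] using (memLp_id_gaussianReal (μ := 0) (v := 1) 2).integrable_sq
  have hsq' : ∫ x : ℝ, x * x ∂gaussianReal 0 1 = 1 := by
    have h := variance_id_gaussianReal (μ := (0 : ℝ)) (v := 1)
    rw [variance_eq_sub (memLp_id_gaussianReal 2)] at h
    simpa [sq] using h
  have hint : ∀ k, ∫ x, F k x ∂gaussianReal 0 1 =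
      if (k = i ↔ k = j) then (1 : ℝ) else 0 := by
    intro k
    by_cases h1 : k = i <;> by_cases h2 : k = j
    · subst h1; subst h2; simpa [hF] using hsq'
    · subst h1; simp [hF, h2]
    · subst h2; simp [hF, h1]
    · simp [hF, h1, h2]
  refine ⟨?_, ?_⟩
  · simp only [hprod]
    refine Integrable.fintype_prod_dep fun k => ?_
    by_cases h1 : k = i <;> by_cases h2 : k = j
    · subst h1; subst h2; simpa [hF] using hsq
    · subst h1; simpa [hF, h2] using hid
    · subst h2; simpa [hF, h1] using hid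
    · simp [hF, h1, h2]
  · simp only [hprod]
    rw [integral_fintype_prod_eq_prod (f := F)]
    simp only [hint]
    by_cases h : i = j
    · simp [h]
    · rw [if_neg h]
      exact Finset.prod_eq_zero (mem_univ i) (by simp [h])

theorem pow_four_le_cosh (z : ℝ) : z ^ 4 ≤ 48 * cosh z := by
  have h1 := Real.sum_le_exp_of_nonneg (abs_nonneg z) 5
  simp [Finset.sum_range_succ, Nat.factorial] at h1
  have h4 : exp |z| ≤ 2 * cosh z := by
    rw [← cosh_abs z, cosh_eq]
    linarith [exp_pos (-|z|)]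
  have h5 : |z| ^ 4 = z ^ 4 := by rw [show (4 : ℕ) = 2 * 2 by rfl, pow_mul, pow_mul, sq_abs]
  nlinarith [abs_nonneg z, pow_nonneg (abs_nonneg z) 3, sq_nonneg z]

theorem hasInt_cosh (c : ι → ℝ) :
    HasInt (fun ξ => cosh (∑ i, c i * ξ i)) (exp ((∑ i, c i ^ 2) / 2)) := by
  refine (((hasInt_exp c).add (hasInt_exp (fun i => -c i))).const_mul (1 / 2)).of_eq
    (fun ξ => ?_) ?_
  · simp [cosh_eq, Finset.sum_neg_distrib]; ring
  · simp; ring

theorem hasInt_sinh (c : ι → ℝ) : HasInt (fun ξ => sinh (∑ i, c i * ξ i)) 0 := by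
  refine (((hasInt_exp c).sub (hasInt_exp (fun i => -c i))).const_mul (1 / 2)).of_eq
    (fun ξ => ?_) ?_
  · simp [sinh_eq, Finset.sum_neg_distrib]; ring
  · simp

end

end Vale.Agent.P150
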