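import Mathlib
import Vale.Agent.P150.Defs
import Vale.Agent.P150.Gauss

/-!
One cavity step for a fixed probability vector on the cube: first and second moments of the
replica sums after tilting by `cosh` of a Gaussian linear field.
-/

namespace Vale.Agent.P150

open MeasureTheory ProbabilityTheory Finset Real

noncomputable section

variable {n : ℕ}

/-- The average of `f` under the weights `μ`. -/
def av (μ : Cube n → ℝ) (f : Cube n → ℝ) : ℝ := ∑ x, μ x * f x

/-- The average of `K` under two independent copies of `μ`. -/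
def av2 (μ : Cube n → ℝ) (K : Cube n → Cube n → ℝ) : ℝ := av μ fun x => av μ fun y => K x y

/-- The inner product of two configurations. -/
def dot (x y : Cube n) : ℝ := ∑ i, spin (x i) * spin (y i)

/-- The local field at the new site. -/
def field (a : ℝ) (x : Cube n) (ξ : Fin n → ℝ) : ℝ := ∑ i, a * spin (x i) * ξ i

/-- Nonnegative weights of total mass one. -/
def IsProb (μ : Cube n → ℝ) : Prop := (∀ x, 0 ≤ μ x) ∧ ∑ x, μ x = 1

theorem spin_mul_self (b : Bool) : spin b * spin b = 1 := by cases b <;> simp [spin]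

theorem abs_spin (b : Bool) : |spin b| = 1 := by cases b <;> simp [spin]

theorem dot_comm (x y : Cube n) : dot x y = dot y x := by simp [dot, mul_comm]

theorem dot_self (x : Cube n) : dot x x = n := by simp [dot, spin_mul_self]

theorem abs_dot_le (x y : Cube n) : |dot x y| ≤ n := by
  refine (abs_sum_le_sum_abs _ _).trans ?_
  simp [abs_mul, abs_spin]

variable {μ : Cube n → ℝ}

theorem av_mono (h : IsProb μ) {f g : Cube n → ℝ} (hfg : ∀ x, f x ≤ g x) : av μ f ≤ av μ g :=
  Finset.sum_le_sum fun x _ => mul_le_mul_of_nonneg_left (hfg x) (h.1 x)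

theorem av_const (h : IsProb μ) (c : ℝ) : av μ (fun _ => c) = c := by
  simp [av, ← Finset.sum_mul, h.2]

theorem av_add (f g : Cube n → ℝ) : av μ (fun x => f x + g x) = av μ f + av μ g := by
  simp [av, mul_add, Finset.sum_add_distrib]

theorem av_mul_left (c : ℝ) (f : Cube n → ℝ) : av μ (fun x => c * f x) = c * av μ f := by
  simp [av, Finset.mul_sum, mul_left_comm]

theorem av_mul_right (c : ℝ) (f : Cube n → ℝ) : av μ (fun x => f x * c) = av μ f * c := by
  simp [av, Finset.sum_mul, mul_assoc]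

theorem av_nonneg (h : IsProb μ) {f : Cube n → ℝ} (hf : ∀ x, 0 ≤ f x) : 0 ≤ av μ f :=
  Finset.sum_nonneg fun x _ => mul_nonneg (h.1 x) (hf x)

theorem av2_mono (h : IsProb μ) {K K' : Cube n → Cube n → ℝ} (hK : ∀ x y, K x y ≤ K' x y) :
    av2 μ K ≤ av2 μ K' := av_mono h fun x => av_mono h (hK x)

theorem av2_nonneg (h : IsProb μ) {K : Cube n → Cube n → ℝ} (hK : ∀ x y, 0 ≤ K x y) :
    0 ≤ av2 μ K := av_nonneg h fun x => av_nonneg h (hK x)

theorem av2_add (K K' : Cube n → Cube n → ℝ) :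
    av2 μ (fun x y => K x y + K' x y) = av2 μ K + av2 μ K' := by
  simp only [av2, av_add]

theorem av2_mul_left (c : ℝ) (K : Cube n → Cube n → ℝ) :
    av2 μ (fun x y => c * K x y) = c * av2 μ K := by simp only [av2, av_mul_left]

theorem av2_const (h : IsProb μ) (c : ℝ) : av2 μ (fun _ _ => c) = c := by
  simp [av2, av_const h]

theorem av2_swap (K : Cube n → Cube n → ℝ) : av2 μ (fun x y => K y x) = av2 μ K := by
  simp only [av2, av, Finset.mul_sum]
  rw [Finset.sum_comm]
  exact Finset.sum_congr rfl fun x _ => Finset.sum_congr rfl fun y _ => by ring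

theorem av2_prod (f g : Cube n → ℝ) : av2 μ (fun x y => f x * g y) = av μ f * av μ g := by
  simp only [av2, av_mul_left, av_mul_right]

theorem av_cs (h : IsProb μ) (f g : Cube n → ℝ) :
    av μ (fun x => f x * g x) ^ 2 ≤ av μ (fun x => f x ^ 2) * av μ (fun x => g x ^ 2) := by
  have key := Finset.sum_mul_sq_le_sq_mul_sq (univ : Finset (Cube n))
    (fun x => sqrt (μ x) * f x) (fun x => sqrt (μ x) * g x)
  simp only [mul_pow, Real.sq_sqrt (h.1 _)] at key
  refine le_trans (le_of_eq ?_) key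
  unfold av
  congr 1
  refine Finset.sum_congr rfl fun x _ => ?_
  calc μ x * (f x * g x) = (sqrt (μ x) * sqrt (μ x)) * (f x * g x) := by
        rw [Real.mul_self_sqrt (h.1 x)]
    _ = _ := by ring

theorem av_sq_le (h : IsProb μ) (f : Cube n → ℝ) : av μ f ^ 2 ≤ av μ (fun x => f x ^ 2) := by
  simpa [av_const h] using av_cs h f (fun _ => 1)

theorem av2_cs (h : IsProb μ) (K K' : Cube n → Cube n → ℝ) :
    av2 μ (fun x y => K x y * K' x y) ^ 2 ≤
      av2 μ (fun x y => K x y ^ 2) * av2 μ (fun x y => K' x y ^ 2) := by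
  set A := fun x => av μ fun y => K x y ^ 2
  set B := fun x => av μ fun y => K' x y ^ 2
  have hA : ∀ x, 0 ≤ A x := fun x => av_nonneg h fun y => sq_nonneg _
  have hB : ∀ x, 0 ≤ B x := fun x => av_nonneg h fun y => sq_nonneg _
  have habs : |av2 μ (fun x y => K x y * K' x y)| ≤ av μ fun x => sqrt (A x) * sqrt (B x) := by
    refine (Finset.abs_sum_le_sum_abs _ _).trans (Finset.sum_le_sum fun x _ => ?_)
    simp only [abs_mul, abs_of_nonneg (h.1 x)]
    rw [← Real.sqrt_mul (hA x)]
    refine mul_le_mul_of_nonneg_left (Real.abs_le_sqrt ?_) (h.1 x)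
    exact av_cs h _ _
  calc av2 μ (fun x y => K x y * K' x y) ^ 2
      ≤ (av μ fun x => sqrt (A x) * sqrt (B x)) ^ 2 := by
        rw [← sq_abs]; exact pow_le_pow_left₀ (abs_nonneg _) habs 2
    _ ≤ av μ (fun x => sqrt (A x) ^ 2) * av μ (fun x => sqrt (B x) ^ 2) := av_cs h _ _
    _ = _ := by
        simp only [Real.sq_sqrt (hA _), Real.sq_sqrt (hB _)]
        rfl

theorem av2_dot_kernel (f g : Cube n → ℝ) :
    av2 μ (fun x y => dot x y * (f x * g y)) =
      ∑ i, av μ (fun x => spin (x i) * f x) * av μ (fun x => spin (x i) * g x) := by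
  simp only [av2, av, dot, Finset.sum_mul, Finset.mul_sum]
  rw [Finset.sum_comm]
  conv_rhs => rw [Finset.sum_comm]
  refine Finset.sum_congr rfl fun x _ => ?_
  rw [Finset.sum_comm]
  exact Finset.sum_congr rfl fun y _ => Finset.sum_congr rfl fun i _ => by ring

theorem av2_dot_kernel_nonneg (f : Cube n → ℝ) :
    0 ≤ av2 μ (fun x y => dot x y * (f x * f y)) := by
  rw [av2_dot_kernel]; exact Finset.sum_nonneg fun i _ => mul_self_nonneg _

theorem av2_dot_sq_kernel (f g : Cube n → ℝ) :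
    av2 μ (fun x y => dot x y ^ 2 * (f x * g y)) =
      ∑ j, ∑ i, av μ (fun x => spin (x i) * (spin (x j) * f x)) *
        av μ (fun x => spin (x i) * (spin (x j) * g x)) := by
  simp only [← av2_dot_kernel]
  simp only [av2, av, Finset.mul_sum]
  conv_rhs => rw [Finset.sum_comm]
  refine Finset.sum_congr rfl fun x _ => ?_
  conv_rhs => rw [Finset.sum_comm]
  refine Finset.sum_congr rfl fun y _ => ?_
  rw [sq]
  conv_lhs => enter [2, 2, 1, 2]; rw [dot]
  rw [Finset.mul_sum, Finset.sum_mul, Finset.mul_sum, Finset.mul_sum]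
  exact Finset.sum_congr rfl fun j _ => by ring

/-- `⟨(x·y)^2⟩`. -/
def ovTwo (μ : Cube n → ℝ) : ℝ := av2 μ fun x y => dot x y ^ 2

/-- `⟨(x·y)^4⟩`. -/
def ovFour (μ : Cube n → ℝ) : ℝ := av2 μ fun x y => dot x y ^ 4

theorem ovTwo_nonneg (h : IsProb μ) : 0 ≤ ovTwo μ := av2_nonneg h fun _ _ => sq_nonneg _

theorem ovTwo_ge (h : IsProb μ) : (n : ℝ) ≤ ovTwo μ := by
  have e := av2_dot_sq_kernel (μ := μ) (fun _ => 1) (fun _ => 1)
  simp only [mul_one] at e
  rw [ovTwo, e]
  calc (n : ℝ) = ∑ _j : Fin n, (1 : ℝ) := by simp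
    _ ≤ _ := Finset.sum_le_sum fun j _ => by
      refine le_trans (le_of_eq ?_) (Finset.single_le_sum (fun i _ => mul_self_nonneg _)
        (Finset.mem_univ j))
      simp [spin_mul_self, av_const h]

theorem ovTwo_sq_le (h : IsProb μ) : ovTwo μ ^ 2 ≤ ovFour μ := by
  have := av2_cs h (fun x y => dot x y ^ 2) (fun _ _ => 1)
  simpa [ovTwo, ovFour, av2_const h, ← pow_mul] using this

theorem ovFour_nonneg (h : IsProb μ) : 0 ≤ ovFour μ :=
  av2_nonneg h fun x y => by rw [show (4:ℕ) = 2 * 2 by rfl, pow_mul]; exact sq_nonneg _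

/-- `⟨(x·y)^2⟩` as a function of one replica. -/
def qf (μ : Cube n → ℝ) (x : Cube n) : ℝ := av μ fun y => dot x y ^ 2

theorem qf_cross_le (h : IsProb μ) :
    av2 μ (fun x y => qf μ x * qf μ y * dot x y ^ 2) ≤ ovFour μ * sqrt (ovFour μ) := by
  have hq : av μ (fun x => qf μ x ^ 2) ≤ ovFour μ := by
    refine av_mono h fun x => (av_sq_le h _).trans (av_mono h fun y => ?_)
    rw [← pow_mul]
  have hcs := av2_cs h (fun x y => qf μ x * qf μ y) (fun x y => dot x y ^ 2)
  simp only [mul_pow, ← pow_mul] at hcs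
  rw [av2_prod] at hcs
  have hU := ovFour_nonneg h
  have hq0 : 0 ≤ av μ (fun x => qf μ x ^ 2) := av_nonneg h fun x => sq_nonneg _
  have h2 : av2 μ (fun x y => qf μ x * qf μ y * dot x y ^ 2) ^ 2 ≤
      (ovFour μ * sqrt (ovFour μ)) ^ 2 := by
    refine hcs.trans ?_
    rw [mul_pow, Real.sq_sqrt hU]
    calc _ ≤ ovFour μ * ovFour μ * ovFour μ := by
          refine mul_le_mul_of_nonneg_right (mul_le_mul hq hq hq0 hU) hU
      _ = _ := by ring
  exact (pow_le_pow_iff_left₀ (av2_nonneg h fun x y => mul_nonneg (mul_nonneg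
    (av_nonneg h fun _ => sq_nonneg _) (av_nonneg h fun _ => sq_nonneg _)) (sq_nonneg _))
    (by positivity) two_ne_zero).1 h2

theorem HasInt.avg {F : Cube n → (Fin n → ℝ) → ℝ} {v : Cube n → ℝ}
    (h : ∀ x, HasInt (F x) (v x)) : HasInt (fun ξ => av μ fun x => F x ξ) (av μ v) :=
  HasInt.sum univ fun x _ => (h x).const_mul (μ x)

theorem HasInt.avg2 {F : Cube n → Cube n → (Fin n → ℝ) → ℝ} {v : Cube n → Cube n → ℝ}
    (h : ∀ x y, HasInt (F x y) (v x y)) :
    HasInt (fun ξ => av2 μ fun x y => F x y ξ) (av2 μ v) :=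
  HasInt.avg fun x => HasInt.avg fun y => h x y

/-- The total variance of the local field. -/
def fieldVar (n : ℕ) (a : ℝ) : ℝ := a ^ 2 * n

/-- The mean of `cosh` of the local field. -/
def meanCosh (n : ℕ) (a : ℝ) : ℝ := exp (fieldVar n a / 2)

theorem meanCosh_pos (n : ℕ) (a : ℝ) : 0 < meanCosh n a := exp_pos _

theorem fieldVar_nonneg (n : ℕ) (a : ℝ) : 0 ≤ fieldVar n a := by unfold fieldVar; positivity

theorem one_le_meanCosh (n : ℕ) (a : ℝ) : 1 ≤ meanCosh n a :=
  one_le_exp (by linarith [fieldVar_nonneg n a])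

theorem sum_field_sq (a : ℝ) (x : Cube n) : ∑ i, (a * spin (x i)) ^ 2 = fieldVar n a := by
  have e : ∀ i, (a * spin (x i)) ^ 2 = a ^ 2 := fun i => by
    rw [mul_pow, sq (spin (x i)), spin_mul_self, mul_one]
  simp [e, fieldVar, mul_comm]

theorem sum_field_add (a σ : ℝ) (hσ : σ ^ 2 = 1) (x y : Cube n) :
    ∑ i, (a * spin (x i) + σ * (a * spin (y i))) ^ 2
      = 2 * fieldVar n a + 2 * σ * (a ^ 2 * dot x y) := by
  have e : ∀ i, (a * spin (x i) + σ * (a * spin (y i))) ^ 2 =
      2 * a ^ 2 + 2 * σ * (a ^ 2 * (spin (x i) * spin (y i))) := by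
    intro i
    have h1 := spin_mul_self (x i)
    have h2 := spin_mul_self (y i)
    linear_combination (a ^ 2) * h1 + (σ ^ 2 * a ^ 2) * h2 + (a ^ 2) * hσ
  simp only [e, Finset.sum_add_distrib, ← Finset.mul_sum, dot]
  simp [fieldVar]; ring

theorem hasInt_cosh_field (a : ℝ) (x : Cube n) :
    HasInt (fun ξ => cosh (field a x ξ)) (meanCosh n a) :=
  (hasInt_cosh (fun i => a * spin (x i))).of_eq (fun _ => rfl) (by rw [sum_field_sq]; rfl)

theorem hasInt_cosh_cosh (a : ℝ) (x y : Cube n) :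
    HasInt (fun ξ => cosh (field a x ξ) * cosh (field a y ξ))
      (meanCosh n a ^ 2 * cosh (a ^ 2 * dot x y)) := by
  refine (((hasInt_cosh (fun i => a * spin (x i) + 1 * (a * spin (y i)))).add
    (hasInt_cosh (fun i => a * spin (x i) + (-1) * (a * spin (y i))))).const_mul (1 / 2)).of_eq
    (fun ξ => ?_) ?_
  · simp only [add_mul, Finset.sum_add_distrib, mul_assoc (-1 : ℝ), one_mul, field]
    simp only [neg_one_mul, Finset.sum_neg_distrib]
    rw [cosh_add, cosh_add, cosh_neg, sinh_neg]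
    ring
  · rw [sum_field_add a 1 (by norm_num), sum_field_add a (-1) (by norm_num), meanCosh,
      ← exp_nat_mul, cosh_eq]
    have e1 : exp ((2 * fieldVar n a + 2 * 1 * (a ^ 2 * dot x y)) / 2) =
        exp (fieldVar n a) * exp (a ^ 2 * dot x y) := by rw [← exp_add]; ring_nf
    have e2 : exp ((2 * fieldVar n a + 2 * (-1) * (a ^ 2 * dot x y)) / 2) =
        exp (fieldVar n a) * exp (-(a ^ 2 * dot x y)) := by rw [← exp_add]; ring_nf
    rw [e1, e2]
    ring_nf

theorem hasInt_sinh_sinh (a : ℝ) (x y : Cube n) :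
    HasInt (fun ξ => sinh (field a x ξ) * sinh (field a y ξ))
      (meanCosh n a ^ 2 * sinh (a ^ 2 * dot x y)) := by
  refine (((hasInt_cosh (fun i => a * spin (x i) + 1 * (a * spin (y i)))).sub
    (hasInt_cosh (fun i => a * spin (x i) + (-1) * (a * spin (y i))))).const_mul (1 / 2)).of_eq
    (fun ξ => ?_) ?_
  · simp only [add_mul, Finset.sum_add_distrib, mul_assoc (-1 : ℝ), one_mul, field]
    simp only [neg_one_mul, Finset.sum_neg_distrib]
    rw [cosh_add, cosh_add, cosh_neg, sinh_neg]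
    ring
  · rw [sum_field_add a 1 (by norm_num), sum_field_add a (-1) (by norm_num), meanCosh,
      ← exp_nat_mul, sinh_eq]
    have e1 : exp ((2 * fieldVar n a + 2 * 1 * (a ^ 2 * dot x y)) / 2) =
        exp (fieldVar n a) * exp (a ^ 2 * dot x y) := by rw [← exp_add]; ring_nf
    have e2 : exp ((2 * fieldVar n a + 2 * (-1) * (a ^ 2 * dot x y)) / 2) =
        exp (fieldVar n a) * exp (-(a ^ 2 * dot x y)) := by rw [← exp_add]; ring_nf
    rw [e1, e2]
    ring_nf

theorem hasInt_field_field (a : ℝ) (x y : Cube n) :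
    HasInt (fun ξ => field a x ξ * field a y ξ) (a ^ 2 * dot x y) := by
  refine (HasInt.sum univ fun i _ => HasInt.sum univ fun j _ =>
    (hasInt_coord_mul i j).const_mul (a * spin (x i) * (a * spin (y j)))).of_eq (fun ξ => ?_) ?_
  · simp only [field, Finset.sum_mul_sum]
    exact Finset.sum_congr rfl fun i _ => Finset.sum_congr rfl fun j _ => by ring
  · simp [dot, Finset.mul_sum]
    exact Finset.sum_congr rfl fun i _ => by ring

theorem hasInt_sinh_linear (a : ℝ) (x y : Cube n) :
    HasInt (fun ξ => sinh (field a x ξ) * field a y ξ) (meanCosh n a * (a ^ 2 * dot x y)) := by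
  refine ((HasInt.sum univ fun j _ => ((hasInt_coord_exp (fun i => a * spin (x i)) j).sub
    (hasInt_coord_exp (fun i => -(a * spin (x i))) j)).const_mul (a * spin (y j) / 2))).of_eq
    (fun ξ => ?_) ?_
  · simp only [field, Finset.mul_sum, neg_mul, Finset.sum_neg_distrib, sinh_eq]
    exact Finset.sum_congr rfl fun j _ => by ring
  · simp only [neg_sq, sum_field_sq, meanCosh, dot, Finset.mul_sum]
    exact Finset.sum_congr rfl fun j _ => by ring

end

end Vale.Agent.P150
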