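import Mathlib
import Vale.Agent.P150.Replica

/-!
The two one-step cavity estimates for a fixed probability vector.
-/

namespace Vale.Agent.P150

open MeasureTheory ProbabilityTheory Finset Real

noncomputable section

variable {n : ℕ} {μ : Cube n → ℝ}

/-- `exp (V^2/2)` for the field variance `V`. -/
def envC (n : ℕ) (a : ℝ) : ℝ := exp (fieldVar n a ^ 2 / 2)

theorem one_le_envC (n : ℕ) (a : ℝ) : 1 ≤ envC n a := one_le_exp (by positivity)

theorem abs_rho_le (a : ℝ) (x y : Cube n) : |a ^ 2 * dot x y| ≤ fieldVar n a := by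
  rw [abs_mul, abs_of_nonneg (sq_nonneg a), fieldVar]
  exact mul_le_mul_of_nonneg_left (abs_dot_le x y) (sq_nonneg a)

theorem cosh_rho_le (a : ℝ) (x y : Cube n) : cosh (a ^ 2 * dot x y) ≤ envC n a := by
  refine (cosh_le_exp_half_sq _).trans (exp_le_exp.2 (div_le_div_of_nonneg_right ?_ (by norm_num)))
  rw [← sq_abs]
  exact pow_le_pow_left₀ (abs_nonneg _) (abs_rho_le a x y) 2

theorem cosh_rho_sub_le (a : ℝ) (x y : Cube n) :
    cosh (a ^ 2 * dot x y) - 1 ≤ envC n a * (a ^ 4 * dot x y ^ 2) := by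
  set z := a ^ 2 * dot x y with hz
  have h1 : cosh z ≤ exp (z ^ 2 / 2) := cosh_le_exp_half_sq z
  have h2 : exp (z ^ 2 / 2) - 1 ≤ z ^ 2 / 2 * exp (z ^ 2 / 2) := by
    have h := add_one_le_exp (-(z ^ 2 / 2))
    have h' : exp (-(z ^ 2 / 2)) * exp (z ^ 2 / 2) = 1 := by rw [← exp_add]; simp
    nlinarith [exp_pos (z ^ 2 / 2)]
  have h3 : exp (z ^ 2 / 2) ≤ envC n a := by
    refine exp_le_exp.2 (div_le_div_of_nonneg_right ?_ (by norm_num))
    rw [← sq_abs]
    exact pow_le_pow_left₀ (abs_nonneg _) (abs_rho_le a x y) 2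
  have h4 : z ^ 2 = a ^ 4 * dot x y ^ 2 := by rw [hz]; ring
  rw [← h4]
  nlinarith [sq_nonneg z, exp_pos (z ^ 2 / 2), one_le_envC n a]

theorem sinh_le_mul_cosh {z : ℝ} (hz : 0 ≤ z) : sinh z ≤ z * cosh z := by
  have key : MonotoneOn (fun t => t * cosh t - sinh t) (Set.Ici (0 : ℝ)) := by
    refine monotoneOn_of_hasDerivWithinAt_nonneg (f' := fun t => t * sinh t) (convex_Ici 0)
      (by fun_prop) (fun t _ => ?_) (fun t ht => ?_)
    · refine (((hasDerivAt_id t).mul (hasDerivAt_cosh t)).sub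
        (hasDerivAt_sinh t)).hasDerivWithinAt.congr_deriv ?_
      simp
    · rw [interior_Ici] at ht
      exact mul_nonneg (le_of_lt ht) (sinh_nonneg_iff.2 (le_of_lt ht))
  have := key (Set.self_mem_Ici) hz hz
  simp at this
  linarith

theorem mul_sinh_ge (z : ℝ) : z * z ≤ z * sinh z := by
  rcases le_total 0 z with h | h
  · exact mul_le_mul_of_nonneg_left (self_le_sinh_iff.2 h) h
  · exact mul_le_mul_of_nonpos_left (sinh_le_self_iff.2 h) h

theorem mul_sinh_le (z : ℝ) : z * sinh z ≤ z * z * cosh z := by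
  rcases le_total 0 z with h | h
  · nlinarith [mul_le_mul_of_nonneg_left (sinh_le_mul_cosh h) h]
  · have := mul_le_mul_of_nonneg_left (sinh_le_mul_cosh (neg_nonneg.2 h)) (neg_nonneg.2 h)
    simp only [sinh_neg, cosh_neg] at this
    nlinarith

/-- `D = ⟨cosh h⟩`. -/
def dS (μ : Cube n → ℝ) (a : ℝ) (ξ : Fin n → ℝ) : ℝ := av μ fun x => cosh (field a x ξ)

/-- `Q = ⟨(x·y)^2 cosh h cosh h'⟩`. -/
def qS (μ : Cube n → ℝ) (a : ℝ) (ξ : Fin n → ℝ) : ℝ :=
  av2 μ fun x y => dot x y ^ 2 * (cosh (field a x ξ) * cosh (field a y ξ))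

/-- `Q₄ = ⟨(x·y)^4 cosh h cosh h'⟩`. -/
def qFour (μ : Cube n → ℝ) (a : ℝ) (ξ : Fin n → ℝ) : ℝ :=
  av2 μ fun x y => dot x y ^ 4 * (cosh (field a x ξ) * cosh (field a y ξ))

/-- `W = ⟨(x·y) sinh h sinh h'⟩`. -/
def wS (μ : Cube n → ℝ) (a : ℝ) (ξ : Fin n → ℝ) : ℝ :=
  av2 μ fun x y => dot x y * (sinh (field a x ξ) * sinh (field a y ξ))

/-- The part of `Q` linear in the fluctuation of `cosh h`. -/
def linPart (μ : Cube n → ℝ) (a : ℝ) (ξ : Fin n → ℝ) : ℝ :=
  av μ fun x => qf μ x * (cosh (field a x ξ) - meanCosh n a)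

/-- The part of `Q` quadratic in the fluctuation of `cosh h`. -/
def quadPart (μ : Cube n → ℝ) (a : ℝ) (ξ : Fin n → ℝ) : ℝ :=
  av2 μ fun x y => dot x y ^ 2 *
    ((cosh (field a x ξ) - meanCosh n a) * (cosh (field a y ξ) - meanCosh n a))

theorem quadPart_nonneg (μ : Cube n → ℝ) (a : ℝ) (ξ : Fin n → ℝ) : 0 ≤ quadPart μ a ξ := by
  rw [quadPart, av2_dot_sq_kernel]
  exact Finset.sum_nonneg fun j _ => Finset.sum_nonneg fun i _ => mul_self_nonneg _

theorem wS_nonneg (μ : Cube n → ℝ) (a : ℝ) (ξ : Fin n → ℝ) : 0 ≤ wS μ a ξ :=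
  av2_dot_kernel_nonneg _

theorem qS_eq (μ : Cube n → ℝ) (a : ℝ) (ξ : Fin n → ℝ) :
    qS μ a ξ = meanCosh n a ^ 2 * ovTwo μ + 2 * meanCosh n a * linPart μ a ξ
      + quadPart μ a ξ := by
  set T := meanCosh n a
  set e := fun x : Cube n => cosh (field a x ξ) - T
  have h1 : av2 μ (fun x y => dot x y ^ 2 * e x) = linPart μ a ξ := by
    simp only [av2, linPart, qf, av_mul_right]
    rfl
  have h2 : av2 μ (fun x y => dot x y ^ 2 * e y) = linPart μ a ξ := by
    rw [← av2_swap, ← h1]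
    simp only [dot_comm]
  have : qS μ a ξ = av2 μ (fun x y => T ^ 2 * dot x y ^ 2 + (T * (dot x y ^ 2 * e x) +
      (T * (dot x y ^ 2 * e y) + dot x y ^ 2 * (e x * e y)))) := by
    unfold qS
    congr 1
    funext x y
    simp only [e]
    ring
  rw [this, av2_add, av2_add, av2_add, av2_mul_left, av2_mul_left, av2_mul_left, h1, h2]
  simp only [ovTwo, quadPart, e]
  ring

theorem one_le_dS (h : IsProb μ) (a : ℝ) (ξ : Fin n → ℝ) : 1 ≤ dS μ a ξ := by
  calc (1 : ℝ) = av μ fun _ => 1 := (av_const h 1).symm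
    _ ≤ _ := av_mono h fun x => one_le_cosh _

theorem ovFour_le_qFour (h : IsProb μ) (a : ℝ) (ξ : Fin n → ℝ) :
    ovFour μ ≤ qFour μ a ξ := by
  refine av2_mono h fun x y => le_mul_of_one_le_right ?_
    (one_le_mul_of_one_le_of_one_le (one_le_cosh _) (one_le_cosh _))
  rw [show (4:ℕ) = 2 * 2 by rfl, pow_mul]
  exact sq_nonneg _

theorem hasInt_dS_sq (μ : Cube n → ℝ) (a : ℝ) :
    HasInt (fun ξ => dS μ a ξ ^ 2)
      (meanCosh n a ^ 2 * av2 μ fun x y => cosh (a ^ 2 * dot x y)) := by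
  refine (HasInt.avg2 (μ := μ) fun x y => hasInt_cosh_cosh a x y).of_eq (fun ξ => ?_) ?_
  · rw [av2_prod, sq]; rfl
  · rw [av2_mul_left]

theorem hasInt_dS_dev (h : IsProb μ) (a : ℝ) :
    HasInt (fun ξ => (dS μ a ξ - meanCosh n a) ^ 2)
      (meanCosh n a ^ 2 * av2 μ fun x y => cosh (a ^ 2 * dot x y) - 1) := by
  have hd : HasInt (fun ξ => dS μ a ξ) (meanCosh n a) :=
    (HasInt.avg (μ := μ) fun x => hasInt_cosh_field a x).of_eq (fun _ => rfl) (av_const h _).symm
  refine (((hasInt_dS_sq μ a).sub (hd.const_mul (2 * meanCosh n a))).add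
    (HasInt.const (meanCosh n a ^ 2))).of_eq (fun ξ => by ring) ?_
  have : av2 μ (fun x y => cosh (a ^ 2 * dot x y) - 1) =
      (av2 μ fun x y => cosh (a ^ 2 * dot x y)) - 1 := by
    have := av2_add (μ := μ) (fun x y => cosh (a ^ 2 * dot x y)) (fun _ _ => (-1 : ℝ))
    rw [av2_const h] at this
    simpa [sub_eq_add_neg] using this
  rw [this]
  ring

theorem hasInt_centred (a : ℝ) (x y : Cube n) :
    HasInt (fun ξ => (cosh (field a x ξ) - meanCosh n a) * (cosh (field a y ξ) - meanCosh n a))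
      (meanCosh n a ^ 2 * (cosh (a ^ 2 * dot x y) - 1)) := by
  refine ((((hasInt_cosh_cosh a x y).sub ((hasInt_cosh_field a x).const_mul (meanCosh n a))).sub
    ((hasInt_cosh_field a y).const_mul (meanCosh n a))).add
    (HasInt.const (meanCosh n a ^ 2))).of_eq (fun ξ => by ring) (by ring)

theorem hasInt_linPart_sq (μ : Cube n → ℝ) (a : ℝ) :
    HasInt (fun ξ => linPart μ a ξ ^ 2) (meanCosh n a ^ 2 *
      av2 μ fun x y => qf μ x * qf μ y * (cosh (a ^ 2 * dot x y) - 1)) := by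
  refine (HasInt.avg2 (μ := μ) fun x y =>
    (hasInt_centred a x y).const_mul (qf μ x * qf μ y)).of_eq (fun ξ => ?_) ?_
  · rw [sq, linPart, ← av2_prod]
    congr 1
    funext x y
    ring
  · rw [← av2_mul_left]
    congr 1
    funext x y
    ring

theorem hasInt_quadPart (μ : Cube n → ℝ) (a : ℝ) :
    HasInt (quadPart μ a) (meanCosh n a ^ 2 *
      av2 μ fun x y => dot x y ^ 2 * (cosh (a ^ 2 * dot x y) - 1)) := by
  refine (HasInt.avg2 (μ := μ) fun x y =>
    (hasInt_centred a x y).const_mul (dot x y ^ 2)).of_eq (fun ξ => rfl) ?_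
  rw [← av2_mul_left]
  congr 1
  funext x y
  ring

theorem hasInt_wS (μ : Cube n → ℝ) (a : ℝ) :
    HasInt (wS μ a) (meanCosh n a ^ 2 *
      av2 μ fun x y => dot x y * sinh (a ^ 2 * dot x y)) := by
  refine (HasInt.avg2 (μ := μ) fun x y =>
    (hasInt_sinh_sinh a x y).const_mul (dot x y)).of_eq (fun ξ => rfl) ?_
  rw [← av2_mul_left]
  congr 1
  funext x y
  ring

theorem hasInt_qFour (μ : Cube n → ℝ) (a : ℝ) :
    HasInt (qFour μ a) (meanCosh n a ^ 2 *
      av2 μ fun x y => dot x y ^ 4 * cosh (a ^ 2 * dot x y)) := by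
  refine (HasInt.avg2 (μ := μ) fun x y =>
    (hasInt_cosh_cosh a x y).const_mul (dot x y ^ 4)).of_eq (fun ξ => rfl) ?_
  rw [← av2_mul_left]
  congr 1
  funext x y
  ring

theorem av2_dot_sinh_le (h : IsProb μ) {a : ℝ} (ha : a ≠ 0) :
    (av2 μ fun x y => dot x y * sinh (a ^ 2 * dot x y)) ≤ envC n a * (a ^ 2 * ovTwo μ) := by
  rw [ovTwo, ← av2_mul_left, ← av2_mul_left]
  refine av2_mono h fun x y => ?_
  have ha2 : (0 : ℝ) < a ^ 2 := by positivity
  refine le_of_mul_le_mul_left ?_ ha2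
  calc a ^ 2 * (dot x y * sinh (a ^ 2 * dot x y))
      = (a ^ 2 * dot x y) * sinh (a ^ 2 * dot x y) := by ring
    _ ≤ (a ^ 2 * dot x y) * (a ^ 2 * dot x y) * cosh (a ^ 2 * dot x y) := mul_sinh_le _
    _ ≤ (a ^ 2 * dot x y) * (a ^ 2 * dot x y) * envC n a :=
        mul_le_mul_of_nonneg_left (cosh_rho_le a x y) (mul_self_nonneg _)
    _ = _ := by ring

theorem av2_dot_sinh_ge (h : IsProb μ) {a : ℝ} (ha : a ≠ 0) :
    a ^ 2 * ovTwo μ ≤ av2 μ fun x y => dot x y * sinh (a ^ 2 * dot x y) := by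
  rw [ovTwo, ← av2_mul_left]
  refine av2_mono h fun x y => ?_
  have ha2 : (0 : ℝ) < a ^ 2 := by positivity
  refine le_of_mul_le_mul_left ?_ ha2
  nlinarith [mul_sinh_ge (a ^ 2 * dot x y)]

open Classical in
/-- Indicator of a proposition. -/
def ind (p : Prop) : ℝ := if p then 1 else 0

theorem ind_nonneg (p : Prop) : 0 ≤ ind p := by unfold ind; split_ifs <;> norm_num

theorem ind_le_one (p : Prop) : ind p ≤ 1 := by unfold ind; split_ifs <;> norm_num

theorem ind_pos {p : Prop} (h : p) : ind p = 1 := if_pos h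

theorem ind_neg {p : Prop} (h : ¬ p) : ind p = 0 := if_neg h

theorem ind_le_div {p : Prop} {X c : ℝ} (hc : 0 < c) (hX : 0 ≤ X) (h : p → c ≤ X) :
    ind p ≤ X / c := by
  by_cases hp : p
  · rw [ind_pos hp, le_div_iff₀ hc, one_mul]; exact h hp
  · rw [ind_neg hp]; positivity

theorem integrable_ind_mul {Ω : Type*} [MeasurableSpace Ω] {ν : Measure Ω} {p : Ω → Prop}
    (hp : MeasurableSet {ω | p ω}) {f : Ω → ℝ} (hf : Integrable f ν) :
    Integrable (fun ω => ind (p ω) * f ω) ν := by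
  have : (fun ω => ind (p ω) * f ω) = Set.indicator {ω | p ω} f := by
    funext ω
    by_cases h : p ω
    · simp [ind_pos h, Set.indicator_of_mem (s := {ω | p ω}) h]
    · simp [ind_neg h, Set.indicator_of_notMem (s := {ω | p ω}) h]
  rw [this]
  exact hf.indicator hp

theorem integrable_ind {Ω : Type*} [MeasurableSpace Ω] {ν : Measure Ω} [IsFiniteMeasure ν]
    {p : Ω → Prop} (hp : MeasurableSet {ω | p ω}) : Integrable (fun ω => ind (p ω)) ν := by
  simpa using integrable_ind_mul hp (integrable_const (μ := ν) (1 : ℝ))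

@[fun_prop]
theorem continuous_field (a : ℝ) (x : Cube n) : Continuous (field a x) := by
  unfold field; fun_prop

@[fun_prop]
theorem continuous_dS (μ : Cube n → ℝ) (a : ℝ) : Continuous (dS μ a) := by
  unfold dS av; fun_prop

@[fun_prop]
theorem continuous_qS (μ : Cube n → ℝ) (a : ℝ) : Continuous (qS μ a) := by
  unfold qS av2 av; fun_prop

@[fun_prop]
theorem continuous_wS (μ : Cube n → ℝ) (a : ℝ) : Continuous (wS μ a) := by
  unfold wS av2 av; fun_prop

@[fun_prop]
theorem continuous_linPart (μ : Cube n → ℝ) (a : ℝ) : Continuous (linPart μ a) := by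
  unfold linPart av; fun_prop

@[fun_prop]
theorem continuous_quadPart (μ : Cube n → ℝ) (a : ℝ) : Continuous (quadPart μ a) := by
  unfold quadPart av2 av; fun_prop

/-- The event on which the tilt behaves as its mean. -/
def Typical (μ : Cube n → ℝ) (a η : ℝ) (ξ : Fin n → ℝ) : Prop :=
  |dS μ a ξ - meanCosh n a| ≤ η * meanCosh n a ∧
    |linPart μ a ξ| ≤ η * meanCosh n a * ovTwo μ ∧
    quadPart μ a ξ ≤ η * meanCosh n a ^ 2 * ovTwo μ ∧
    wS μ a ξ ≤ η * meanCosh n a ^ 2 * ovTwo μ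

theorem measurableSet_typical (μ : Cube n → ℝ) (a η : ℝ) :
    MeasurableSet {ξ | Typical μ a η ξ} := by
  refine IsClosed.measurableSet ?_
  simp only [Typical, Set.ofPred_and]
  exact IsClosed.inter (isClosed_le (by fun_prop) (by fun_prop))
    (IsClosed.inter (isClosed_le (by fun_prop) (by fun_prop))
      (IsClosed.inter (isClosed_le (by fun_prop) (by fun_prop))
        (isClosed_le (by fun_prop) (by fun_prop))))

theorem measurableSet_not_typical (μ : Cube n → ℝ) (a η : ℝ) :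
    MeasurableSet {ξ | ¬ Typical μ a η ξ} := (measurableSet_typical μ a η).compl

theorem div_helper_sq {η T S X : ℝ} (hη : η ≠ 0) (hT : T ≠ 0) (hS : S ≠ 0) :
    1 / (η * T * S) ^ 2 * (T ^ 2 * X) = X / S ^ 2 / η ^ 2 := by field_simp

theorem div_helper {η T S X : ℝ} (hη : η ≠ 0) (hT : T ≠ 0) (hS : S ≠ 0) :
    1 / (η * T ^ 2 * S) * (T ^ 2 * X) = X / S / η := by field_simp

/-- The bound on the probability of an atypical tilt, before division by `η^2 n^(1/4)`. -/
def badC (n : ℕ) (a : ℝ) : ℝ :=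
  (3 * fieldVar n a ^ 2 + fieldVar n a + 16 * meanCosh n a ^ 2) * envC n a

theorem typical_fail_le (h : IsProb μ) {a η r : ℝ} (ha : a ≠ 0) (hr : 1 ≤ r)
    (hn : (n : ℝ) = r ^ 4) (hη : 0 < η) (hη1 : η ≤ 1) (hU : ovFour μ ≤ r ^ 10) :
    ∫ ξ, ind (¬ Typical μ a η ξ) ∂gauss (Fin n) ≤ badC n a / (η ^ 2 * r) := by
  set T := meanCosh n a
  set S := ovTwo μ
  set U := ovFour μ
  set V := fieldVar n a with hVdef
  set K := envC n a
  have hT : 0 < T := meanCosh_pos n a
  have hK : 1 ≤ K := one_le_envC n a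
  have hn0 : (0 : ℝ) < n := by rw [hn]; positivity
  have hS : (n : ℝ) ≤ S := ovTwo_ge h
  have hS0 : 0 < S := hn0.trans_le hS
  have hU0 : 0 ≤ U := ovFour_nonneg h
  have hsU : sqrt U ≤ r ^ 5 := by
    rw [Real.sqrt_le_iff]
    exact ⟨by positivity, by rw [← pow_mul]; exact hU⟩
  have hSU : S ≤ r ^ 5 :=
    (Real.le_sqrt_of_sq_le (ovTwo_sq_le h)).trans hsU
  have hV0 : 0 ≤ V := fieldVar_nonneg n a
  have ha4 : a ^ 4 = V ^ 2 / r ^ 8 := by
    rw [hVdef, fieldVar, hn]; field_simp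
  have ha2 : a ^ 2 = V / r ^ 4 := by
    rw [hVdef, fieldVar, hn]; field_simp
  have e1 := hasInt_dS_dev h a
  have e2 := hasInt_linPart_sq μ a
  have e3 := hasInt_quadPart μ a
  have e4 := hasInt_wS μ a
  have e2' := e2.const_mul (1 / (η * T * S) ^ 2)
  have e1' := e1.const_mul (1 / (η * T) ^ 2)
  have e3' := e3.const_mul (1 / (η * T ^ 2 * S))
  have e4' := e4.const_mul (1 / (η * T ^ 2 * S))
  have etot := ((e1'.add e2').add e3').add e4'
  refine le_trans (integral_mono (integrable_ind (measurableSet_not_typical μ a η))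
    etot.1 fun ξ => ?_) ?_
  · by_cases hty : Typical μ a η ξ
    · rw [ind_neg (not_not.2 hty)]
      have := quadPart_nonneg μ a ξ
      have := wS_nonneg μ a ξ
      positivity
    · rw [ind_pos hty]
      have hq := quadPart_nonneg μ a ξ
      have hw := wS_nonneg μ a ξ
      have p1 : 0 ≤ 1 / (η * T) ^ 2 * (dS μ a ξ - T) ^ 2 := by positivity
      have p2 : 0 ≤ 1 / (η * T * S) ^ 2 * linPart μ a ξ ^ 2 := by positivity
      have p3 : 0 ≤ 1 / (η * T ^ 2 * S) * quadPart μ a ξ := by positivity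
      have p4 : 0 ≤ 1 / (η * T ^ 2 * S) * wS μ a ξ := by positivity
      simp only [Typical, not_and_or, not_le] at hty
      rcases hty with h' | h' | h' | h'
      · have : 1 ≤ 1 / (η * T) ^ 2 * (dS μ a ξ - T) ^ 2 := by
          rw [one_div, ← div_eq_inv_mul, one_le_div (by positivity), ← sq_abs (dS μ a ξ - T)]
          exact pow_le_pow_left₀ (by positivity) h'.le 2
        linarith
      · have : 1 ≤ 1 / (η * T * S) ^ 2 * linPart μ a ξ ^ 2 := by
          rw [one_div, ← div_eq_inv_mul, one_le_div (by positivity), ← sq_abs (linPart μ a ξ)]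
          exact pow_le_pow_left₀ (by positivity) h'.le 2
        linarith
      · have : 1 ≤ 1 / (η * T ^ 2 * S) * quadPart μ a ξ := by
          rw [one_div, ← div_eq_inv_mul, one_le_div (by positivity)]
          exact h'.le
        linarith
      · have : 1 ≤ 1 / (η * T ^ 2 * S) * wS μ a ξ := by
          rw [one_div, ← div_eq_inv_mul, one_le_div (by positivity)]
          exact h'.le
        linarith
  · rw [etot.2]
    have b1 : av2 μ (fun x y => cosh (a ^ 2 * dot x y) - 1) ≤ K * (a ^ 4 * S) := by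
      simp only [S, ovTwo, ← av2_mul_left]
      exact av2_mono h fun x y => cosh_rho_sub_le a x y
    have b2 : av2 μ (fun x y => qf μ x * qf μ y * (cosh (a ^ 2 * dot x y) - 1)) ≤
        K * (a ^ 4 * (U * sqrt U)) := by
      refine le_trans ?_ (mul_le_mul_of_nonneg_left (mul_le_mul_of_nonneg_left (qf_cross_le h)
        (show (0 : ℝ) ≤ a ^ 4 by positivity)) (by linarith))
      simp only [← av2_mul_left]
      refine av2_mono h fun x y => ?_
      refine le_trans (mul_le_mul_of_nonneg_left (cosh_rho_sub_le a x y)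
        (mul_nonneg (av_nonneg h fun _ => sq_nonneg _) (av_nonneg h fun _ => sq_nonneg _)))
        (le_of_eq ?_)
      ring
    have b3 : av2 μ (fun x y => dot x y ^ 2 * (cosh (a ^ 2 * dot x y) - 1)) ≤
        K * (a ^ 4 * U) := by
      simp only [U, ovFour, ← av2_mul_left]
      refine av2_mono h fun x y => ?_
      refine le_trans (mul_le_mul_of_nonneg_left (cosh_rho_sub_le a x y) (sq_nonneg _))
        (le_of_eq ?_)
      ring
    have b4 := av2_dot_sinh_le h ha
    have hr0 : 0 < r := by linarith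
    have f1 : a ^ 4 * S ≤ V ^ 2 / r := by
      rw [ha4, div_mul_eq_mul_div, div_le_div_iff₀ (by positivity) hr0]
      calc V ^ 2 * S * r ≤ V ^ 2 * r ^ 5 * r := by gcongr
        _ = V ^ 2 * r ^ 6 := by ring
        _ ≤ V ^ 2 * r ^ 8 := by
            exact mul_le_mul_of_nonneg_left (pow_le_pow_right₀ hr (by norm_num)) (by positivity)
    have f2 : a ^ 4 * (U * sqrt U) / S ^ 2 ≤ V ^ 2 / r := by
      rw [ha4, div_mul_eq_mul_div, div_div, div_le_div_iff₀ (by positivity) hr0]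
      calc V ^ 2 * (U * sqrt U) * r ≤ V ^ 2 * (r ^ 10 * r ^ 5) * r := by gcongr
        _ = V ^ 2 * (r ^ 8 * (r ^ 4) ^ 2) := by ring
        _ ≤ V ^ 2 * (r ^ 8 * S ^ 2) := by rw [← hn]; gcongr
    have f3 : a ^ 4 * U / S ≤ V ^ 2 / r := by
      rw [ha4, div_mul_eq_mul_div, div_div, div_le_div_iff₀ (by positivity) hr0]
      calc V ^ 2 * U * r ≤ V ^ 2 * r ^ 10 * r := by gcongr
        _ = V ^ 2 * r ^ 11 := by ring
        _ ≤ V ^ 2 * r ^ 12 :=
            mul_le_mul_of_nonneg_left (pow_le_pow_right₀ hr (by norm_num)) (by positivity)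
        _ = V ^ 2 * (r ^ 8 * r ^ 4) := by ring
        _ ≤ V ^ 2 * (r ^ 8 * S) := by rw [← hn]; gcongr
    have f4 : a ^ 2 ≤ V / r := by
      rw [ha2]
      exact div_le_div_of_nonneg_left hV0 hr0 (le_self_pow₀ hr (by norm_num))
    have g1 : 1 / (η * T) ^ 2 *
        (T ^ 2 * av2 μ fun x y => cosh (a ^ 2 * dot x y) - 1) ≤ K * (V ^ 2 / r) / η ^ 2 := by
      rw [show 1 / (η * T) ^ 2 * (T ^ 2 * av2 μ fun x y => cosh (a ^ 2 * dot x y) - 1)
        = (av2 μ fun x y => cosh (a ^ 2 * dot x y) - 1) / η ^ 2 by field_simp]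
      gcongr
      exact b1.trans (mul_le_mul_of_nonneg_left f1 (by linarith))
    have g2 : 1 / (η * T * S) ^ 2 * (T ^ 2 *
        av2 μ fun x y => qf μ x * qf μ y * (cosh (a ^ 2 * dot x y) - 1)) ≤
        K * (V ^ 2 / r) / η ^ 2 := by
      rw [div_helper_sq hη.ne' hT.ne' hS0.ne']
      gcongr
      refine le_trans (div_le_div_of_nonneg_right b2 (by positivity)) ?_
      rw [mul_div_assoc]
      exact mul_le_mul_of_nonneg_left f2 (by linarith)
    have hηη : η ^ 2 ≤ η := by nlinarith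
    have g3 : 1 / (η * T ^ 2 * S) * (T ^ 2 *
        av2 μ fun x y => dot x y ^ 2 * (cosh (a ^ 2 * dot x y) - 1)) ≤
        K * (V ^ 2 / r) / η ^ 2 := by
      rw [div_helper hη.ne' hT.ne' hS0.ne']
      refine le_trans (div_le_div_of_nonneg_right ?_ hη.le)
        (div_le_div_of_nonneg_left (by positivity) (by positivity) hηη)
      refine le_trans (div_le_div_of_nonneg_right b3 hS0.le) ?_
      rw [mul_div_assoc]
      exact mul_le_mul_of_nonneg_left f3 (by linarith)
    have g4 : 1 / (η * T ^ 2 * S) * (T ^ 2 *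
        av2 μ fun x y => dot x y * sinh (a ^ 2 * dot x y)) ≤ K * (V / r) / η ^ 2 := by
      rw [div_helper hη.ne' hT.ne' hS0.ne']
      refine le_trans (div_le_div_of_nonneg_right ?_ hη.le)
        (div_le_div_of_nonneg_left (by positivity) (by positivity) hηη)
      refine le_trans (div_le_div_of_nonneg_right b4 hS0.le) ?_
      rw [mul_div_assoc, mul_div_assoc, div_self hS0.ne', mul_one]
      exact mul_le_mul_of_nonneg_left f4 (by linarith)
    calc _ ≤ K * (V ^ 2 / r) / η ^ 2 + K * (V ^ 2 / r) / η ^ 2 + K * (V ^ 2 / r) / η ^ 2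
          + K * (V / r) / η ^ 2 := by linarith
      _ = (3 * V ^ 2 + V) * K / (η ^ 2 * r) := by ring
      _ ≤ _ := by
          unfold badC
          refine div_le_div_of_nonneg_right (mul_le_mul_of_nonneg_right ?_ (by linarith))
            (by positivity)
          exact le_add_of_nonneg_right (by positivity)

theorem upper_step (h : IsProb μ) {a η r L B : ℝ} (ha : a ≠ 0) (hr : 1 ≤ r)
    (hn : (n : ℝ) = r ^ 4) (hη : 0 < η) (hη1 : η ≤ 1 / 16) (hL : 1 ≤ L) (hLr : L ≤ r ^ 9)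
    (hB : 0 ≤ B) (U1 : (Fin n → ℝ) → ℝ) (hU1c : Continuous U1)
    (hU1 : ∀ ξ, qFour μ a ξ ≤ dS μ a ξ ^ 2 * (8 * U1 ξ + 8)) :
    ∫ ξ, ind (U1 ξ ≤ L ∧ qS μ a ξ / dS μ a ξ ^ 2 + 2 * (wS μ a ξ / dS μ a ξ ^ 2) + 1 ≤ B)
        * (qS μ a ξ / dS μ a ξ ^ 2) ∂gauss (Fin n)
      ≤ ind (ovFour μ ≤ 64 * meanCosh n a ^ 2 * L ∧ ovTwo μ ≤ B * (1 + 8 * η)) *
          ovTwo μ * (1 + 8 * η) + B * (badC n a / (η ^ 2 * r)) := by
  set T := meanCosh n a
  set S := ovTwo μ
  set U := ovFour μ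
  have hT : 0 < T := meanCosh_pos n a
  have hS0 : 0 ≤ S := ovTwo_nonneg h
  set G := fun ξ => U1 ξ ≤ L ∧
    qS μ a ξ / dS μ a ξ ^ 2 + 2 * (wS μ a ξ / dS μ a ξ ^ 2) + 1 ≤ B with hG
  set C := ind (U ≤ 64 * T ^ 2 * L ∧ S ≤ B * (1 + 8 * η)) * S * (1 + 8 * η)
  have hC : 0 ≤ C := mul_nonneg (mul_nonneg (ind_nonneg _) hS0) (by linarith)
  have hd0 : ∀ ξ, dS μ a ξ ^ 2 ≠ 0 := fun ξ => by have := one_le_dS h a ξ; positivity
  have hmG : MeasurableSet {ξ | G ξ} := by
    refine IsClosed.measurableSet ?_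
    simp only [hG, Set.ofPred_and]
    refine IsClosed.inter (isClosed_le hU1c continuous_const) (isClosed_le ?_ continuous_const)
    fun_prop (disch := exact hd0)
  have hmq : Continuous (fun ξ => qS μ a ξ / dS μ a ξ ^ 2) := by
    fun_prop (disch := exact hd0)
  have hq0 : ∀ ξ, 0 ≤ qS μ a ξ / dS μ a ξ ^ 2 := fun ξ => div_nonneg
    (av2_nonneg h fun x y => mul_nonneg (sq_nonneg _)
      (mul_nonneg (cosh_pos _).le (cosh_pos _).le)) (sq_nonneg _)
  have hQB : ∀ ξ, G ξ → qS μ a ξ / dS μ a ξ ^ 2 ≤ B := by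
    intro ξ hξ
    have h2 : 0 ≤ wS μ a ξ / dS μ a ξ ^ 2 := div_nonneg (wS_nonneg μ a ξ) (sq_nonneg _)
    have := hξ.2
    linarith
  have hint : Integrable (fun ξ => ind (G ξ) * (qS μ a ξ / dS μ a ξ ^ 2)) (gauss (Fin n)) := by
    refine Integrable.of_bound ((measurable_const.ite hmG measurable_const).mul
      hmq.measurable).aestronglyMeasurable B (.of_forall fun ξ => ?_)
    rw [norm_eq_abs, abs_of_nonneg (mul_nonneg (ind_nonneg _) (hq0 ξ))]
    by_cases hξ : G ξ
    · rw [ind_pos hξ, one_mul]; exact hQB ξ hξ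
    · rw [ind_neg hξ, zero_mul]; exact hB
  have hmN : MeasurableSet {ξ | G ξ ∧ ¬ Typical μ a η ξ} :=
    hmG.inter (measurableSet_not_typical μ a η)
  have key : ∀ ξ, ind (G ξ) * (qS μ a ξ / dS μ a ξ ^ 2) ≤
      C + B * ind (G ξ ∧ ¬ Typical μ a η ξ) := by
    intro ξ
    by_cases hξ : G ξ
    · rw [ind_pos hξ, one_mul]
      by_cases hty : Typical μ a η ξ
      · rw [ind_neg (fun h' => h'.2 hty), mul_zero, add_zero]
        obtain ⟨h1, h2, h3, -⟩ := hty
        rw [abs_le] at h1 h2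
        have hd1 := one_le_dS h a ξ
        have hD : 0 < dS μ a ξ := by linarith
        have hD2 : dS μ a ξ ^ 2 ≤ T ^ 2 * (1 + η) ^ 2 := by
          rw [← mul_pow]; exact pow_le_pow_left₀ hD.le (by linarith) 2
        have hD3 : T ^ 2 * (1 - η) ^ 2 ≤ dS μ a ξ ^ 2 := by
          rw [← mul_pow]
          exact pow_le_pow_left₀ (mul_nonneg hT.le (by linarith)) (by linarith) 2
        have hUle : U ≤ 64 * T ^ 2 * L := by
          calc U ≤ dS μ a ξ ^ 2 * (8 * U1 ξ + 8) := (ovFour_le_qFour h a ξ).trans (hU1 ξ)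
            _ ≤ dS μ a ξ ^ 2 * (16 * L) := mul_le_mul_of_nonneg_left
                (by linarith [hξ.1]) (sq_nonneg _)
            _ ≤ (4 * T ^ 2) * (16 * L) := mul_le_mul_of_nonneg_right
                (hD2.trans (by nlinarith [sq_nonneg T])) (by linarith)
            _ = _ := by ring
        have hqlo : T ^ 2 * S * (1 - 2 * η) ≤ qS μ a ξ := by
          rw [qS_eq]
          nlinarith [quadPart_nonneg μ a ξ, mul_le_mul_of_nonneg_left h2.1 hT.le]
        have hqhi : qS μ a ξ ≤ T ^ 2 * S * (1 + 3 * η) := by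
          rw [qS_eq]
          nlinarith [mul_le_mul_of_nonneg_left h2.2 hT.le]
        have hnum : (1 + η) ^ 2 ≤ (1 + 8 * η) * (1 - 2 * η) := by nlinarith
        have hSle : S ≤ B * (1 + 8 * η) := by
          have hb := hQB ξ hξ
          rw [div_le_iff₀ (by positivity)] at hb
          have hchain : T ^ 2 * S * (1 - 2 * η) ≤
              T ^ 2 * (B * (1 + 8 * η)) * (1 - 2 * η) := by
            calc T ^ 2 * S * (1 - 2 * η) ≤ B * dS μ a ξ ^ 2 := hqlo.trans hb
              _ ≤ B * (T ^ 2 * (1 + η) ^ 2) := mul_le_mul_of_nonneg_left hD2 hB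
              _ = T ^ 2 * B * (1 + η) ^ 2 := by ring
              _ ≤ T ^ 2 * B * ((1 + 8 * η) * (1 - 2 * η)) :=
                  mul_le_mul_of_nonneg_left hnum (by positivity)
              _ = _ := by ring
          have := le_of_mul_le_mul_right hchain (show (0 : ℝ) < 1 - 2 * η by linarith)
          exact le_of_mul_le_mul_left this (by positivity)
        simp only [C, ind_pos (show U ≤ 64 * T ^ 2 * L ∧ S ≤ B * (1 + 8 * η) from ⟨hUle, hSle⟩),
          one_mul]
        rw [div_le_iff₀ (by positivity)]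
        refine hqhi.trans ?_
        calc T ^ 2 * S * (1 + 3 * η) ≤ T ^ 2 * S * ((1 + 8 * η) * (1 - η) ^ 2) := by
              refine mul_le_mul_of_nonneg_left ?_ (by positivity)
              nlinarith [sq_nonneg η, mul_nonneg hη.le (sq_nonneg η)]
          _ = S * (1 + 8 * η) * (T ^ 2 * (1 - η) ^ 2) := by ring
          _ ≤ _ := mul_le_mul_of_nonneg_left hD3 (by positivity)
      · rw [ind_pos (show G ξ ∧ ¬ Typical μ a η ξ from ⟨hξ, hty⟩), mul_one]
        linarith [hQB ξ hξ]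
    · rw [ind_neg hξ, zero_mul]
      exact add_nonneg hC (mul_nonneg hB (ind_nonneg _))
  have hfail : ∫ ξ, ind (G ξ ∧ ¬ Typical μ a η ξ) ∂gauss (Fin n) ≤
      badC n a / (η ^ 2 * r) := by
    by_cases hU : U ≤ r ^ 10
    · refine le_trans (integral_mono (integrable_ind hmN)
        (integrable_ind (measurableSet_not_typical μ a η)) fun ξ => ?_)
        (typical_fail_le h ha hr hn hη (by linarith) hU)
      by_cases h' : G ξ ∧ ¬ Typical μ a η ξ
      · rw [ind_pos h', ind_pos h'.2]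
      · rw [ind_neg h']; exact ind_nonneg _
    · rw [not_le] at hU
      have hd := (hasInt_dS_sq μ a).const_mul (16 * L / r ^ 10)
      refine le_trans (integral_mono (integrable_ind hmN) hd.1 fun ξ => ?_) ?_
      · rw [div_mul_eq_mul_div]
        refine ind_le_div (by positivity) (by positivity) fun h' => ?_
        calc r ^ 10 ≤ U := hU.le
          _ ≤ dS μ a ξ ^ 2 * (8 * U1 ξ + 8) := (ovFour_le_qFour h a ξ).trans (hU1 ξ)
          _ ≤ dS μ a ξ ^ 2 * (16 * L) := mul_le_mul_of_nonneg_left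
              (by linarith [h'.1.1]) (sq_nonneg _)
          _ = _ := by ring
      · rw [hd.2]
        have hc : av2 μ (fun x y => cosh (a ^ 2 * dot x y)) ≤ envC n a :=
          (av2_mono h fun x y => cosh_rho_le a x y).trans (le_of_eq (av2_const h _))
        have hr0 : 0 < r := by linarith
        calc 16 * L / r ^ 10 * (T ^ 2 * av2 μ fun x y => cosh (a ^ 2 * dot x y))
            ≤ 16 * r ^ 9 / r ^ 10 * (T ^ 2 * envC n a) :=
              mul_le_mul (by gcongr) (mul_le_mul_of_nonneg_left hc (sq_nonneg T))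
                (mul_nonneg (sq_nonneg _) (av2_nonneg h fun x y => (cosh_pos _).le))
                (by positivity)
          _ = 16 * T ^ 2 * envC n a / r := by field_simp
          _ ≤ badC n a / r := by
              gcongr
              unfold badC
              have := one_le_envC n a
              have := fieldVar_nonneg n a
              gcongr
              exact le_add_of_nonneg_left (by positivity)
          _ ≤ _ := by
              refine div_le_div_of_nonneg_left ?_ (by positivity) ?_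
              · unfold badC
                have := one_le_envC n a
                have := fieldVar_nonneg n a
                positivity
              · exact mul_le_of_le_one_left (by positivity) (pow_le_one₀ hη.le (by linarith))
  calc ∫ ξ, ind (G ξ) * (qS μ a ξ / dS μ a ξ ^ 2) ∂gauss (Fin n)
      ≤ ∫ ξ, (C + B * ind (G ξ ∧ ¬ Typical μ a η ξ)) ∂gauss (Fin n) :=
        integral_mono hint ((integrable_const C).add ((integrable_ind hmN).const_mul B)) key
    _ = C + B * ∫ ξ, ind (G ξ ∧ ¬ Typical μ a η ξ) ∂gauss (Fin n) := by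
        rw [integral_add (integrable_const C) ((integrable_ind hmN).const_mul B),
          integral_const_mul B]
        simp [C]
    _ ≤ _ := by gcongr

theorem hasInt_cosh_unit {ι : Type*} [Fintype ι] (c : ι → ℝ) (w : ℝ) (hw : 0 < w)
    (hc : ∑ i, c i ^ 2 = w) :
    HasInt (fun ξ => cosh ((∑ i, c i * ξ i) / sqrt w)) (exp (1 / 2)) := by
  refine (hasInt_cosh (fun i => c i / sqrt w)).of_eq (fun ξ => ?_) ?_
  · rw [Finset.sum_div]; simp [div_mul_eq_mul_div]
  · simp_rw [div_pow, Real.sq_sqrt hw.le, ← Finset.sum_div, hc, div_self hw.ne']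

/-- `⟨(x·y) h h'⟩`, a quadratic form in the Gaussian vector. -/
def hQuad (μ : Cube n → ℝ) (a : ℝ) (ξ : Fin n → ℝ) : ℝ :=
  av2 μ fun x y => dot x y * (field a x ξ * field a y ξ)

/-- The error of replacing `sinh h` by its projection on linear forms. -/
def hRest (μ : Cube n → ℝ) (a : ℝ) (ξ : Fin n → ℝ) : ℝ :=
  av2 μ fun x y => dot x y * ((sinh (field a x ξ) - meanCosh n a * field a x ξ) *
    (sinh (field a y ξ) - meanCosh n a * field a y ξ))

theorem wS_le_split (μ : Cube n → ℝ) (a : ℝ) (ξ : Fin n → ℝ) :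
    wS μ a ξ ≤ 2 * meanCosh n a ^ 2 * hQuad μ a ξ + 2 * hRest μ a ξ := by
  simp only [wS, hQuad, hRest, av2_dot_kernel, Finset.mul_sum, ← Finset.sum_add_distrib]
  refine Finset.sum_le_sum fun i _ => ?_
  set T := meanCosh n a
  have e : av μ (fun x => spin (x i) * sinh (field a x ξ)) =
      T * av μ (fun x => spin (x i) * field a x ξ) +
        av μ (fun x => spin (x i) * (sinh (field a x ξ) - T * field a x ξ)) := by
    rw [← av_mul_left, ← av_add]
    congr 1
    funext x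
    ring
  rw [e]
  nlinarith [sq_nonneg (T * av μ (fun x => spin (x i) * field a x ξ) -
    av μ (fun x => spin (x i) * (sinh (field a x ξ) - T * field a x ξ)))]

theorem hRest_le (h : IsProb μ) (a : ℝ) :
    ∃ v, HasInt (hRest μ a) v ∧
      v ≤ meanCosh n a ^ 2 * (envC n a * (a ^ 6 * ovFour μ)) := by
  set T := meanCosh n a
  have hx : ∀ x y : Cube n,
      HasInt (fun ξ => dot x y * ((sinh (field a x ξ) - T * field a x ξ) *
        (sinh (field a y ξ) - T * field a y ξ)))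
        (T ^ 2 * (dot x y * (sinh (a ^ 2 * dot x y) - a ^ 2 * dot x y))) := by
    intro x y
    refine (((((hasInt_sinh_sinh a x y).sub ((hasInt_sinh_linear a x y).const_mul T)).sub
      ((hasInt_sinh_linear a y x).const_mul T)).add
      ((hasInt_field_field a x y).const_mul (T ^ 2))).const_mul (dot x y)).of_eq
      (fun ξ => by ring) ?_
    rw [dot_comm y x]
    ring
  refine ⟨_, HasInt.avg2 (μ := μ) hx, ?_⟩
  simp only [ovFour, ← av2_mul_left]
  refine av2_mono h fun x y => mul_le_mul_of_nonneg_left ?_ (sq_nonneg T)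
  set d := dot x y
  have hc := cosh_rho_sub_le a x y
  have key : d * (sinh (a ^ 2 * d) - a ^ 2 * d) ≤ a ^ 2 * d ^ 2 * (cosh (a ^ 2 * d) - 1) := by
    rcases eq_or_ne a 0 with rfl | ha
    · simp
    · refine le_of_mul_le_mul_left ?_ (show (0:ℝ) < a ^ 2 by positivity)
      nlinarith [mul_sinh_le (a ^ 2 * d)]
  refine key.trans ((mul_le_mul_of_nonneg_left hc (by positivity)).trans (le_of_eq ?_))
  ring

theorem hQuad_eq (μ : Cube n → ℝ) (a : ℝ) (ξ : Fin n → ℝ) :
    hQuad μ a ξ = ∑ i, (∑ j, (a * av μ fun x => spin (x i) * spin (x j)) * ξ j) ^ 2 := by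
  rw [hQuad, av2_dot_kernel]
  refine Finset.sum_congr rfl fun i _ => ?_
  have e : av μ (fun x => spin (x i) * field a x ξ)
      = ∑ j, (a * av μ fun x => spin (x i) * spin (x j)) * ξ j := by
    simp only [av, field, Finset.mul_sum, Finset.sum_mul]
    rw [Finset.sum_comm]
    exact Finset.sum_congr rfl fun j _ => Finset.sum_congr rfl fun x _ => by ring
  rw [e, sq]

theorem hQuad_weights (μ : Cube n → ℝ) (a : ℝ) :
    ∑ i, ∑ j, (a * av μ fun x => spin (x i) * spin (x j)) ^ 2 = a ^ 2 * ovTwo μ := by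
  have e := av2_dot_sq_kernel (μ := μ) (fun _ => 1) (fun _ => 1)
  simp only [mul_one] at e
  rw [ovTwo, e, Finset.sum_comm, Finset.mul_sum]
  refine Finset.sum_congr rfl fun j _ => ?_
  rw [Finset.mul_sum]
  refine Finset.sum_congr rfl fun i _ => ?_
  ring

theorem hQuad_sq_le (μ : Cube n → ℝ) (a : ℝ) :
    ∃ v, Integrable (fun ξ => hQuad μ a ξ ^ 2) (gauss (Fin n)) ∧
      ∫ ξ, hQuad μ a ξ ^ 2 ∂gauss (Fin n) ≤ v ∧ v ≤ 96 * (a ^ 2 * ovTwo μ) ^ 2 := by
  set c := fun i j : Fin n => a * av μ fun x => spin (x i) * spin (x j) with hc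
  set w := fun i => ∑ j, c i j ^ 2 with hw
  set A := a ^ 2 * ovTwo μ with hA
  have hwA : ∑ i, w i = A := hQuad_weights μ a
  have hw0 : ∀ i, 0 ≤ w i := fun i => Finset.sum_nonneg fun j _ => sq_nonneg _
  have hA0 : 0 ≤ A := by rw [← hwA]; exact Finset.sum_nonneg fun i _ => hw0 i
  have hbound : HasInt (fun ξ => A * ∑ i, 48 * w i * cosh ((∑ j, c i j * ξ j) / sqrt (w i)))
      (A * ∑ i, 48 * w i * exp (1 / 2)) := by
    refine (HasInt.sum univ fun i _ => ?_).const_mul A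
    by_cases h0 : w i = 0
    · simpa [h0] using HasInt.const (ι := Fin n) 0
    · exact (hasInt_cosh_unit (c i) (w i) ((hw0 i).lt_of_ne' h0) rfl).const_mul _
  have hpt : ∀ ξ, hQuad μ a ξ ^ 2 ≤
      A * ∑ i, 48 * w i * cosh ((∑ j, c i j * ξ j) / sqrt (w i)) := by
    intro ξ
    rw [hQuad_eq]
    set u := fun i => (∑ j, c i j * ξ j) / sqrt (w i)
    have hu : ∀ i, (∑ j, c i j * ξ j) ^ 2 = sqrt (w i) * (sqrt (w i) * u i ^ 2) := by
      intro i
      rw [← mul_assoc, Real.mul_self_sqrt (hw0 i)]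
      by_cases h0 : w i = 0
      · have hz : ∀ j, c i j = 0 := fun j => by
          have := (Finset.sum_eq_zero_iff_of_nonneg fun k _ => sq_nonneg (c i k)).1 h0 j
            (Finset.mem_univ j)
          simpa using this
        simp [hz, h0]
      · simp only [u, div_pow, Real.sq_sqrt (hw0 i)]
        field_simp
    calc (∑ i, (∑ j, c i j * ξ j) ^ 2) ^ 2
        = (∑ i, sqrt (w i) * (sqrt (w i) * u i ^ 2)) ^ 2 := by simp only [hu]
      _ ≤ (∑ i, sqrt (w i) ^ 2) * ∑ i, (sqrt (w i) * u i ^ 2) ^ 2 :=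
          Finset.sum_mul_sq_le_sq_mul_sq _ _ _
      _ ≤ _ := by
          simp only [mul_pow, Real.sq_sqrt (hw0 _), ← pow_mul, hwA]
          refine mul_le_mul_of_nonneg_left (Finset.sum_le_sum fun i _ => ?_) hA0
          rw [mul_comm 48, mul_assoc]
          exact mul_le_mul_of_nonneg_left (pow_four_le_cosh _) (hw0 i)
  have hcont : Continuous (fun ξ => hQuad μ a ξ ^ 2) := by unfold hQuad av2 av; fun_prop
  have hint : Integrable (fun ξ => hQuad μ a ξ ^ 2) (gauss (Fin n)) :=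
    hbound.1.mono' hcont.aestronglyMeasurable (.of_forall fun ξ => by
      rw [norm_eq_abs, abs_of_nonneg (sq_nonneg _)]; exact hpt ξ)
  refine ⟨_, hint, (integral_mono hint hbound.1 hpt).trans (le_of_eq hbound.2), ?_⟩
  rw [show A * ∑ i, 48 * w i * exp (1 / 2) = 48 * exp (1 / 2) * A ^ 2 by
    rw [← Finset.sum_mul, ← Finset.mul_sum, hwA]; ring]
  have h2 : exp (1 / 2 : ℝ) ≤ 2 := by
    have := Real.exp_bound' (x := (1 / 2 : ℝ)) (by norm_num) (by norm_num) (n := 3) (by norm_num)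
    refine this.trans ?_
    norm_num [Finset.sum_range_succ, Nat.factorial]
  nlinarith [sq_nonneg A]

/-- Failure of typicality, or a large fourth overlap after the step. -/
def StepBad (μ : Cube n → ℝ) (a η L : ℝ) (U1 : (Fin n → ℝ) → ℝ) (ξ : Fin n → ℝ) : Prop :=
  ¬ Typical μ a η ξ ∨ L < U1 ξ

theorem stepBad_good (h : IsProb μ) {a η L B : ℝ} (hη : 0 < η) (hη1 : η ≤ 1 / 16)
    (hnη : 1 ≤ η * n) (hS : ovTwo μ ≤ B / (1 + 16 * η)) (U1 : (Fin n → ℝ) → ℝ)
    (ξ : Fin n → ℝ) (hξ : ¬ StepBad μ a η L U1 ξ) :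
    (U1 ξ ≤ L ∧ qS μ a ξ / dS μ a ξ ^ 2 + 2 * (wS μ a ξ / dS μ a ξ ^ 2) + 1 ≤ B) ∧
      dS μ a ξ ≤ meanCosh n a * (1 + η) := by
  set T := meanCosh n a
  set S := ovTwo μ
  have hT : 0 < T := meanCosh_pos n a
  have hSn : (n : ℝ) ≤ S := ovTwo_ge h
  have hS0 : 0 ≤ S := ovTwo_nonneg h
  simp only [StepBad, not_or, not_not, not_lt] at hξ
  obtain ⟨⟨h1, h2, h3, h4⟩, hUL⟩ := hξ
  rw [abs_le] at h1 h2
  refine ⟨⟨hUL, ?_⟩, by linarith⟩
  have hD3 : T ^ 2 * (1 - η) ^ 2 ≤ dS μ a ξ ^ 2 := by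
    rw [← mul_pow]
    exact pow_le_pow_left₀ (mul_nonneg hT.le (by linarith)) (by linarith) 2
  have hη0 : 0 < T ^ 2 * (1 - η) ^ 2 := by
    have : (0:ℝ) < 1 - η := by linarith
    positivity
  have hq : qS μ a ξ / dS μ a ξ ^ 2 ≤ S * (1 + 8 * η) := by
    rw [div_le_iff₀ (hη0.trans_le hD3)]
    have hqhi : qS μ a ξ ≤ T ^ 2 * S * (1 + 3 * η) := by
      rw [qS_eq]
      nlinarith [mul_le_mul_of_nonneg_left h2.2 hT.le]
    refine hqhi.trans ?_
    calc T ^ 2 * S * (1 + 3 * η) ≤ T ^ 2 * S * ((1 + 8 * η) * (1 - η) ^ 2) := by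
          refine mul_le_mul_of_nonneg_left ?_ (by positivity)
          nlinarith [sq_nonneg η, mul_nonneg hη.le (sq_nonneg η)]
      _ = S * (1 + 8 * η) * (T ^ 2 * (1 - η) ^ 2) := by ring
      _ ≤ _ := mul_le_mul_of_nonneg_left hD3 (by positivity)
  have hw : wS μ a ξ / dS μ a ξ ^ 2 ≤ S * (2 * η) := by
    rw [div_le_iff₀ (hη0.trans_le hD3)]
    calc wS μ a ξ ≤ η * T ^ 2 * S := h4
      _ = S * η * T ^ 2 := by ring
      _ ≤ S * η * T ^ 2 * (2 * (1 - η) ^ 2) := le_mul_of_one_le_right (by positivity)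
          (by nlinarith)
      _ = S * (2 * η) * (T ^ 2 * (1 - η) ^ 2) := by ring
      _ ≤ _ := mul_le_mul_of_nonneg_left hD3 (by positivity)
  have hone : 1 ≤ S * η := hnη.trans (by nlinarith)
  rw [le_div_iff₀ (by linarith)] at hS
  nlinarith

theorem stepBad_prob (h : IsProb μ) {a η r L M p : ℝ} (ha : a ≠ 0) (hr : 1 ≤ r)
    (hn : (n : ℝ) = r ^ 4) (hη : 0 < η) (hη1 : η ≤ 1 / 16) (hL : 0 < L) (hM : 0 < M)
    (hUr : ovFour μ ≤ r ^ 10) (hU : ovFour μ ≤ L / M)
    (hp : badC n a / (η ^ 2 * r) + 16 * meanCosh n a ^ 2 * envC n a / M ≤ p)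
    (U1 : (Fin n → ℝ) → ℝ)
    (hU1 : ∀ ξ, U1 ξ ≤ 8 * (qFour μ a ξ / dS μ a ξ ^ 2) + 8)
    (hmB : MeasurableSet {ξ | StepBad μ a η L U1 ξ}) :
    ∫ ξ, ind (StepBad μ a η L U1 ξ) ∂gauss (Fin n) ≤ p := by
  set T := meanCosh n a
  set S := ovTwo μ
  set U := ovFour μ
  set K := envC n a
  set Bad := StepBad μ a η L U1 with hBad
  have hK : 1 ≤ K := one_le_envC n a
  have hT1 : 1 ≤ T := one_le_meanCosh n a
  have hn1 : (1 : ℝ) ≤ n := by rw [hn]; exact one_le_pow₀ hr
  have hSn : (n : ℝ) ≤ S := ovTwo_ge h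
  have hU1' : 1 ≤ U := le_trans (one_le_pow₀ (hn1.trans hSn)) (ovTwo_sq_le h)
  have hq4 := (((hasInt_qFour μ a).const_mul 8).add (HasInt.const 8)).const_mul (1 / L)
  refine le_trans ?_ hp
  refine le_trans (integral_mono (integrable_ind hmB)
    ((integrable_ind (measurableSet_not_typical μ a η)).add hq4.1) fun ξ => ?_) ?_
  · have p1 : 0 ≤ ind (¬ Typical μ a η ξ) := ind_nonneg _
    have hq40 : 0 ≤ qFour μ a ξ := (ovFour_nonneg h).trans (ovFour_le_qFour h a ξ)
    have p2 : 0 ≤ 1 / L * (8 * qFour μ a ξ + 8) := by positivity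
    simp only [Pi.add_apply]
    by_cases hb : ¬ Typical μ a η ξ
    · rw [ind_pos hb]; linarith [ind_le_one (Bad ξ)]
    · by_cases hb' : L < U1 ξ
      · have : 1 ≤ 1 / L * (8 * qFour μ a ξ + 8) := by
          rw [one_div, ← div_eq_inv_mul, one_le_div hL]
          have hdiv : qFour μ a ξ / dS μ a ξ ^ 2 ≤ qFour μ a ξ :=
            div_le_self hq40 (one_le_pow₀ (one_le_dS h a ξ))
          linarith [hU1 ξ]
        linarith [ind_le_one (Bad ξ)]
      · rw [ind_neg (show ¬ Bad ξ from fun hh => hh.elim hb hb')]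
        positivity
  · simp only [Pi.add_apply]
    rw [integral_add (integrable_ind (measurableSet_not_typical μ a η)) hq4.1, hq4.2]
    refine add_le_add (typical_fail_le h ha hr hn hη (by linarith) hUr) ?_
    have hb : av2 μ (fun x y => dot x y ^ 4 * cosh (a ^ 2 * dot x y)) ≤ K * U := by
      simp only [U, ovFour, ← av2_mul_left]
      refine av2_mono h fun x y => ?_
      rw [mul_comm]
      exact mul_le_mul_of_nonneg_right (cosh_rho_le a x y)
        (by rw [show (4:ℕ) = 2 * 2 by rfl, pow_mul]; exact sq_nonneg _)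
    calc 1 / L * (8 * (T ^ 2 * av2 μ fun x y => dot x y ^ 4 * cosh (a ^ 2 * dot x y)) + 8)
        ≤ 1 / L * (8 * (T ^ 2 * (K * U)) + 8 * (T ^ 2 * (K * U))) := by
          refine mul_le_mul_of_nonneg_left (add_le_add ?_ ?_) (by positivity)
          · exact mul_le_mul_of_nonneg_left (mul_le_mul_of_nonneg_left hb (sq_nonneg T))
              (by norm_num)
          · exact le_mul_of_one_le_right (by norm_num) (one_le_mul_of_one_le_of_one_le
              (one_le_pow₀ hT1) (one_le_mul_of_one_le_of_one_le hK hU1'))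
      _ ≤ 1 / L * (16 * T ^ 2 * K * (L / M)) := by
          rw [show 8 * (T ^ 2 * (K * U)) + 8 * (T ^ 2 * (K * U)) = 16 * T ^ 2 * K * U by ring]
          gcongr
      _ = _ := by field_simp

theorem stepBad_wS (h : IsProb μ) {a η L p : ℝ} (ha : a ≠ 0) (hn0 : 0 < n) (hp0 : 0 < p)
    (U1 : (Fin n → ℝ) → ℝ) (hmB : MeasurableSet {ξ | StepBad μ a η L U1 ξ})
    (hpbad : ∫ ξ, ind (StepBad μ a η L U1 ξ) ∂gauss (Fin n) ≤ p) :
    ∫ ξ, ind (StepBad μ a η L U1 ξ) * wS μ a ξ ∂gauss (Fin n) ≤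
      2 * meanCosh n a ^ 2 * (50 * sqrt p * (a ^ 2 * ovTwo μ)) +
        2 * (meanCosh n a ^ 2 * (envC n a * (a ^ 6 * ovFour μ))) := by
  set T := meanCosh n a
  set S := ovTwo μ
  set U := ovFour μ
  set K := envC n a
  have hS0 : 0 < S := lt_of_lt_of_le (by exact_mod_cast hn0) (ovTwo_ge h)
  set Bad := StepBad μ a η L U1
  have hWint := hasInt_wS μ a
  obtain ⟨v, hv, hvle⟩ := hRest_le h a
  obtain ⟨v', hqi, hqv, hv'⟩ := hQuad_sq_le μ a
  set A := a ^ 2 * S with hA
  have hA0 : 0 < A := by positivity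
  set γ := sqrt p
  have hγ : 0 < γ := sqrt_pos.2 hp0
  have hR0 : ∀ ξ, 0 ≤ hRest μ a ξ := fun ξ => av2_dot_kernel_nonneg _
  have hdom : Integrable (fun ξ => 2 * T ^ 2 * (γ / (2 * A) * hQuad μ a ξ ^ 2 +
      A / (2 * γ) * ind (Bad ξ)) + 2 * hRest μ a ξ) (gauss (Fin n)) :=
    (((hqi.const_mul _).add ((integrable_ind hmB).const_mul _)).const_mul _).add
      (hv.1.const_mul 2)
  refine le_trans (integral_mono (integrable_ind_mul hmB hWint.1) hdom fun ξ => ?_) ?_
  · have hsplit := wS_le_split μ a ξ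
    have hq0 : 0 ≤ hQuad μ a ξ := av2_dot_kernel_nonneg _
    have := hR0 ξ
    by_cases hb : Bad ξ
    · simp only [ind_pos hb, one_mul, mul_one]
      have hamgm : hQuad μ a ξ ≤ γ / (2 * A) * hQuad μ a ξ ^ 2 + A / (2 * γ) := by
        rw [div_mul_eq_mul_div, div_add_div _ _ (by positivity) (by positivity),
          le_div_iff₀ (by positivity)]
        nlinarith [sq_nonneg (γ * hQuad μ a ξ - A)]
      linarith [mul_le_mul_of_nonneg_left hamgm (show (0:ℝ) ≤ 2 * T ^ 2 by positivity)]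
    · simp only [ind_neg hb, zero_mul, mul_zero, add_zero]
      positivity
  · rw [integral_add (((hqi.const_mul _).fun_add
        ((integrable_ind hmB).const_mul _)).const_mul _) (hv.1.const_mul 2),
      integral_const_mul, integral_add (hqi.const_mul _) ((integrable_ind hmB).const_mul _),
      integral_const_mul, integral_const_mul, integral_const_mul, hv.2]
    refine add_le_add (mul_le_mul_of_nonneg_left ?_ (by positivity)) (by linarith)
    calc γ / (2 * A) * ∫ ξ, hQuad μ a ξ ^ 2 ∂gauss (Fin n)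
          + A / (2 * γ) * ∫ ξ, ind (Bad ξ) ∂gauss (Fin n)
        ≤ γ / (2 * A) * (96 * A ^ 2) + A / (2 * γ) * p := by
          gcongr
          exact hqv.trans hv'
      _ = 48 * γ * A + A / (2 * γ) * γ ^ 2 := by
          rw [Real.sq_sqrt hp0.le]; field_simp; ring
      _ ≤ _ := by
          rw [show A / (2 * γ) * γ ^ 2 = γ * A / 2 by field_simp]
          nlinarith [mul_pos hγ hA0]

theorem lower_step (h : IsProb μ) {a η r L B M p : ℝ} (ha : a ≠ 0) (hr : 1 ≤ r)
    (hn : (n : ℝ) = r ^ 4) (hη : 0 < η) (hη1 : η ≤ 1 / 16) (hnη : 1 ≤ η * n)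
    (hL : 0 < L) (hM : 0 < M) (hUr : ovFour μ ≤ r ^ 10)
    (hU : ovFour μ ≤ L / M) (hS : ovTwo μ ≤ B / (1 + 16 * η))
    (hp : badC n a / (η ^ 2 * r) + 16 * meanCosh n a ^ 2 * envC n a / M ≤ p) (hp0 : 0 < p)
    (U1 : (Fin n → ℝ) → ℝ) (hU1c : Continuous U1)
    (hU1 : ∀ ξ, U1 ξ ≤ 8 * (qFour μ a ξ / dS μ a ξ ^ 2) + 8) :
    n * (1 - p) + (1 - 1 / (n : ℝ)) * fieldVar n a * ovTwo μ * (1 - 100 * sqrt p) / (1 + η) ^ 2
        - 2 * envC n a * fieldVar n a ^ 3 * r ^ 2 ≤
      n * (∫ ξ, ind (U1 ξ ≤ L ∧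
          qS μ a ξ / dS μ a ξ ^ 2 + 2 * (wS μ a ξ / dS μ a ξ ^ 2) + 1 ≤ B) ∂gauss (Fin n)) +
        ((n : ℝ) - 1) * ∫ ξ, ind (U1 ξ ≤ L ∧
          qS μ a ξ / dS μ a ξ ^ 2 + 2 * (wS μ a ξ / dS μ a ξ ^ 2) + 1 ≤ B)
            * (wS μ a ξ / dS μ a ξ ^ 2) ∂gauss (Fin n) := by
  set T := meanCosh n a
  set S := ovTwo μ
  set U := ovFour μ
  set V := fieldVar n a
  set K := envC n a
  have hK : 1 ≤ K := one_le_envC n a
  have hT : 0 < T := meanCosh_pos n a
  have hT1 : 1 ≤ T := one_le_meanCosh n a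
  have hn0 : (0 : ℝ) < n := by rw [hn]; positivity
  have hn1 : (1 : ℝ) ≤ n := by rw [hn]; exact one_le_pow₀ hr
  have hSn : (n : ℝ) ≤ S := ovTwo_ge h
  have hS0 : 0 < S := hn0.trans_le hSn
  have hU1' : 1 ≤ U := le_trans (one_le_pow₀ (hn1.trans hSn)) (ovTwo_sq_le h)
  set G := fun ξ => U1 ξ ≤ L ∧
    qS μ a ξ / dS μ a ξ ^ 2 + 2 * (wS μ a ξ / dS μ a ξ ^ 2) + 1 ≤ B with hG
  set Bad := StepBad μ a η L U1
  have hd0 : ∀ ξ, dS μ a ξ ^ 2 ≠ 0 := fun ξ => by have := one_le_dS h a ξ; positivity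
  have hmG : MeasurableSet {ξ | G ξ} := by
    refine IsClosed.measurableSet ?_
    simp only [hG, Set.ofPred_and]
    refine IsClosed.inter (isClosed_le hU1c continuous_const) (isClosed_le ?_ continuous_const)
    fun_prop (disch := exact hd0)
  have hmU : MeasurableSet {ξ | L < U1 ξ} := (isOpen_lt continuous_const hU1c).measurableSet
  have hmB : MeasurableSet {ξ | Bad ξ} := (measurableSet_not_typical μ a η).union hmU
  have hgood : ∀ ξ, ¬ Bad ξ → G ξ ∧ dS μ a ξ ≤ T * (1 + η) :=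
    fun ξ hξ => stepBad_good h hη hη1 hnη hS U1 ξ hξ
  have hpbad : ∫ ξ, ind (Bad ξ) ∂gauss (Fin n) ≤ p :=
    stepBad_prob h ha hr hn hη hη1 hL hM hUr hU hp U1 hU1 hmB
  have hWint := hasInt_wS μ a
  have hWB : ∫ ξ, ind (Bad ξ) * wS μ a ξ ∂gauss (Fin n) ≤
      2 * T ^ 2 * (50 * sqrt p * (a ^ 2 * S)) + 2 * (T ^ 2 * (K * (a ^ 6 * U))) :=
    stepBad_wS h ha (by exact_mod_cast hn0) hp0 U1 hmB hpbad
  have hEG : 1 - p ≤ ∫ ξ, ind (G ξ) ∂gauss (Fin n) := by
    have hint : Integrable (fun ξ => 1 - ind (Bad ξ)) (gauss (Fin n)) :=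
      (integrable_const _).sub (integrable_ind hmB)
    calc 1 - p ≤ 1 - ∫ ξ, ind (Bad ξ) ∂gauss (Fin n) := by linarith
      _ = ∫ ξ, (1 - ind (Bad ξ)) ∂gauss (Fin n) := by
          rw [integral_sub (integrable_const _) (integrable_ind hmB)]; simp
      _ ≤ _ := integral_mono hint (integrable_ind hmG) fun ξ => by
          by_cases hb : Bad ξ
          · rw [ind_pos hb]; linarith [ind_nonneg (G ξ)]
          · rw [ind_neg hb, ind_pos (hgood ξ hb).1]; norm_num
  have hEW : (T ^ 2 * (a ^ 2 * S) - (2 * T ^ 2 * (50 * sqrt p * (a ^ 2 * S)) +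
      2 * (T ^ 2 * (K * (a ^ 6 * U))))) / (T * (1 + η)) ^ 2 ≤
      ∫ ξ, ind (G ξ) * (wS μ a ξ / dS μ a ξ ^ 2) ∂gauss (Fin n) := by
    have hint : Integrable (fun ξ => ind (G ξ) * (wS μ a ξ / dS μ a ξ ^ 2))
        (gauss (Fin n)) := by
      have hc : Continuous (fun ξ => wS μ a ξ / dS μ a ξ ^ 2) := by
        fun_prop (disch := exact hd0)
      refine hWint.1.mono' ((measurable_const.ite hmG measurable_const).mul
        hc.measurable).aestronglyMeasurable (.of_forall fun ξ => ?_)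
      have hdiv : 0 ≤ wS μ a ξ / dS μ a ξ ^ 2 := div_nonneg (wS_nonneg μ a ξ) (sq_nonneg _)
      rw [norm_eq_abs, abs_of_nonneg (mul_nonneg (ind_nonneg _) hdiv)]
      exact (mul_le_of_le_one_left hdiv (ind_le_one _)).trans
        (div_le_self (wS_nonneg μ a ξ) (one_le_pow₀ (one_le_dS h a ξ)))
    have hI := (hWint.1.sub (integrable_ind_mul hmB hWint.1)).div_const ((T * (1 + η)) ^ 2)
    refine le_trans ?_ (integral_mono hI hint fun ξ => ?_)
    · simp only [Pi.sub_apply]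
      rw [integral_div, integral_sub hWint.1 (integrable_ind_mul hmB hWint.1), hWint.2]
      refine div_le_div_of_nonneg_right ?_ (sq_nonneg _)
      have := av2_dot_sinh_ge h ha
      linarith [mul_le_mul_of_nonneg_left this (sq_nonneg T)]
    · simp only [Pi.sub_apply]
      by_cases hb : Bad ξ
      · rw [ind_pos hb, one_mul, sub_self, zero_div]
        exact mul_nonneg (ind_nonneg _) (div_nonneg (wS_nonneg μ a ξ) (sq_nonneg _))
      · rw [ind_neg hb, zero_mul, sub_zero, ind_pos (hgood ξ hb).1, one_mul]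
        refine div_le_div_of_nonneg_left (wS_nonneg μ a ξ) ?_ ?_
        · have := one_le_dS h a ξ; positivity
        · exact pow_le_pow_left₀ (zero_le_one.trans (one_le_dS h a ξ)) (hgood ξ hb).2 2
  have e1 : ((n : ℝ) - 1) * ((T ^ 2 * (a ^ 2 * S) - (2 * T ^ 2 * (50 * sqrt p * (a ^ 2 * S)) +
      2 * (T ^ 2 * (K * (a ^ 6 * U))))) / (T * (1 + η)) ^ 2) =
      (1 - 1 / (n : ℝ)) * V * S * (1 - 100 * sqrt p) / (1 + η) ^ 2 -
        2 * K * (((n : ℝ) - 1) * a ^ 6 * U) / (1 + η) ^ 2 := by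
    rw [show V = a ^ 2 * n from rfl]
    field_simp
    ring
  have e2 : 2 * K * (((n : ℝ) - 1) * a ^ 6 * U) / (1 + η) ^ 2 ≤ 2 * K * V ^ 3 * r ^ 2 := by
    refine (div_le_self ?_ (one_le_pow₀ (by linarith))).trans ?_
    · have : (0:ℝ) ≤ n - 1 := by linarith
      positivity
    · calc 2 * K * (((n : ℝ) - 1) * a ^ 6 * U) ≤ 2 * K * ((n : ℝ) * a ^ 6 * r ^ 10) := by
            gcongr
            linarith
        _ = _ := by rw [show V = a ^ 2 * n from rfl, hn]; ring
  have hn1' : (0 : ℝ) ≤ n - 1 := by linarith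
  have := mul_le_mul_of_nonneg_left hEW hn1'
  have := mul_le_mul_of_nonneg_left hEG hn0.le
  rw [e1] at *
  linarith

end

end Vale.Agent.P150
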