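import Mathlib
import Vale.Agent.P150.Step

/-!
The averaged cavity inequality, from exchangeability of the sites.
-/

namespace Vale.Agent.P150

open MeasureTheory ProbabilityTheory Finset Real

noncomputable section

variable {n : ℕ}

theorem measurePreserving_injective {ι κ : Type*} [Fintype ι] [Fintype κ] {e : κ → ι}
    (he : Function.Injective e) :
    MeasurePreserving (fun g : ι → ℝ => fun k => g (e k)) (gauss ι) (gauss κ) := by
  classical
  refine ⟨by fun_prop, ?_⟩
  symm
  refine Measure.pi_eq fun s hs => ?_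
  rw [Measure.map_apply (by fun_prop) (MeasurableSet.univ_pi hs)]
  let t : ι → Set ℝ := fun i => if h : ∃ k, e k = i then s h.choose else Set.univ
  have ht : ∀ k, t (e k) = s k := by
    intro k
    have hk : ∃ l, e l = e k := ⟨k, rfl⟩
    simp only [t, dif_pos hk]
    rw [he hk.choose_spec]
  have hpre : (fun g : ι → ℝ => fun k => g (e k)) ⁻¹' Set.univ.pi s = Set.univ.pi t := by
    ext g
    simp only [Set.mem_preimage, Set.mem_pi, Set.mem_univ, true_implies]
    refine ⟨fun hg i => ?_, fun hg k => ht k ▸ hg (e k)⟩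
    by_cases h : ∃ k, e k = i
    · obtain ⟨k, rfl⟩ := h
      rw [ht k]; exact hg k
    · simp [t, dif_neg h]
  rw [hpre, Measure.pi_pi]
  rw [← Finset.prod_subset (Finset.subset_univ (univ.image e)) fun i _ hi => ?_,
    Finset.prod_image fun a _ b _ h => he h]
  · exact Finset.prod_congr rfl fun k _ => by rw [ht k]
  · have h : ¬ ∃ k, e k = i := by simpa using hi
    simp [t, dif_neg h]

theorem energy_eq (g : Disorder n) (x : Cube n) :
    energy g x = ∑ i, ∑ j, if i < j then g s(i, j) * spin (x i) * spin (x j) else 0 := by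
  rw [energy, Finset.sum_filter, Fintype.sum_prod_type]

theorem two_energy (g : Disorder n) (x : Cube n) :
    2 * energy g x = ∑ i, ∑ j, if i ≠ j then g s(i, j) * spin (x i) * spin (x j) else 0 := by
  have hswap : energy g x =
      ∑ i, ∑ j, if j < i then g s(i, j) * spin (x i) * spin (x j) else 0 := by
    rw [energy_eq, Finset.sum_comm]
    refine Finset.sum_congr rfl fun i _ => Finset.sum_congr rfl fun j _ => ?_
    split_ifs
    · rw [Sym2.eq_swap]; ring
    · rfl
  rw [two_mul]
  nth_rewrite 1 [energy_eq]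
  rw [hswap, ← Finset.sum_add_distrib]
  refine Finset.sum_congr rfl fun i _ => ?_
  rw [← Finset.sum_add_distrib]
  refine Finset.sum_congr rfl fun j _ => ?_
  rcases lt_trichotomy i j with h | h | h
  · simp [h, h.ne, h.not_gt]
  · simp [h]
  · simp [h, h.ne', h.not_gt]

/-- The old couplings. -/
def oldPart (g : Disorder (n + 1)) : Disorder n := fun s => g (Sym2.map Fin.succ s)

/-- The couplings at the new site, site `0`. -/
def newPart (g : Disorder (n + 1)) : Fin n → ℝ := fun i => g s(0, i.succ)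

theorem energy_cons (g : Disorder (n + 1)) (b : Bool) (y : Cube n) :
    energy g (Fin.cons b y) =
      energy (oldPart g) y + spin b * ∑ i, spin (y i) * newPart g i := by
  simp only [energy_eq, Fin.sum_univ_succ, lt_self_iff_false, if_false, Fin.succ_lt_succ_iff,
    Fin.succ_pos, if_true, Fin.not_lt_zero, zero_add, Fin.cons_zero, Fin.cons_succ, oldPart,
    newPart, Sym2.map_mk, Finset.mul_sum]
  rw [add_comm]
  congr 1
  exact Finset.sum_congr rfl fun i _ => by ring

/-- The permutation of couplings induced by a permutation of sites. -/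
def permute (σ : Equiv.Perm (Fin n)) (g : Disorder n) : Disorder n := fun s => g (Sym2.map σ s)

theorem energy_permute (σ : Equiv.Perm (Fin n)) (g : Disorder n) (x : Cube n) :
    energy (permute σ g) (x ∘ σ) = energy g x := by
  have h := two_energy g x
  have h' := two_energy (permute σ g) (x ∘ σ)
  have e : (∑ i, ∑ j, if i ≠ j then permute σ g s(i, j) * spin ((x ∘ σ) i) * spin ((x ∘ σ) j)
      else 0) = ∑ i, ∑ j, if i ≠ j then g s(i, j) * spin (x i) * spin (x j) else 0 := by
    refine Fintype.sum_equiv σ _ _ fun i => Fintype.sum_equiv σ _ _ fun j => ?_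
    simp [permute, σ.injective.ne_iff]
  linarith

theorem isProb_gibbsWith (a : ℝ) (g : Disorder n) : IsProb (gibbsWith a g) := by
  have hZ : 0 < ∑ y, exp (a * energy g y) :=
    Finset.sum_pos (fun _ _ => exp_pos _) Finset.univ_nonempty
  refine ⟨fun x => by unfold gibbsWith; positivity, ?_⟩
  simp only [gibbsWith, ← Finset.sum_div]
  exact div_self hZ.ne'

theorem gibbsWith_pos (a : ℝ) (g : Disorder n) (x : Cube n) : 0 < gibbsWith a g x :=
  div_pos (exp_pos _) (Finset.sum_pos (fun _ _ => exp_pos _) Finset.univ_nonempty)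

theorem gibbsWith_permute (a : ℝ) (σ : Equiv.Perm (Fin n)) (g : Disorder n) (x : Cube n) :
    gibbsWith a (permute σ g) (x ∘ σ) = gibbsWith a g x := by
  unfold gibbsWith
  rw [energy_permute]
  congr 1
  refine (Fintype.sum_equiv (Equiv.arrowCongr σ.symm (Equiv.refl Bool)) _ _ fun y => ?_).symm
  simp [Equiv.arrowCongr, energy_permute, show (fun i => y (σ i)) = y ∘ σ from rfl]

theorem av_permute (a : ℝ) (σ : Equiv.Perm (Fin n)) (g : Disorder n) (f : Cube n → ℝ) :
    av (gibbsWith a (permute σ g)) f = av (gibbsWith a g) fun x => f (x ∘ σ) := by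
  refine (Fintype.sum_equiv (Equiv.arrowCongr σ.symm (Equiv.refl Bool)) _ _ fun y => ?_).symm
  simp [Equiv.arrowCongr, gibbsWith_permute, show (fun i => y (σ i)) = y ∘ σ from rfl]

theorem av2_permute (a : ℝ) (σ : Equiv.Perm (Fin n)) (g : Disorder n)
    (K : Cube n → Cube n → ℝ) :
    av2 (gibbsWith a (permute σ g)) K = av2 (gibbsWith a g) fun x y => K (x ∘ σ) (y ∘ σ) := by
  simp only [av2, av_permute]

theorem dot_comp (σ : Equiv.Perm (Fin n)) (x y : Cube n) : dot (x ∘ σ) (y ∘ σ) = dot x y :=
  Equiv.sum_comp σ fun i => spin (x i) * spin (y i)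

/-- The event `ovFour ≤ L` and `ovTwo ≤ B` for the Gibbs measure. -/
def Good (a L B : ℝ) (g : Disorder n) : Prop :=
  ovFour (gibbsWith a g) ≤ L ∧ ovTwo (gibbsWith a g) ≤ B

/-- The contribution of site `i` to `⟨(x·y)^2⟩`. -/
def siteTerm (a : ℝ) (i : Fin n) (g : Disorder n) : ℝ :=
  av2 (gibbsWith a g) fun x y => spin (x i) * spin (y i) * dot x y

theorem ovTwo_sum_site (a : ℝ) (g : Disorder n) :
    ovTwo (gibbsWith a g) = ∑ i, siteTerm a i g := by
  simp only [ovTwo, siteTerm, av2, av]
  rw [Finset.sum_comm]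
  refine Finset.sum_congr rfl fun x _ => ?_
  simp only [Finset.mul_sum]
  rw [Finset.sum_comm]
  refine Finset.sum_congr rfl fun y _ => ?_
  rw [sq]
  conv_lhs => enter [2, 2, 1]; rw [dot]
  rw [Finset.sum_mul, Finset.mul_sum, Finset.mul_sum]

theorem abs_av2_le {μ : Cube n → ℝ} (h : IsProb μ) {K : Cube n → Cube n → ℝ} {c : ℝ}
    (hK : ∀ x y, |K x y| ≤ c) : |av2 μ K| ≤ c := by
  rw [abs_le]
  constructor
  · rw [← av2_const h (-c)]; exact av2_mono h fun x y => (abs_le.1 (hK x y)).1
  · refine le_trans (av2_mono h fun x y => (abs_le.1 (hK x y)).2) (av2_const h c).le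

theorem abs_siteTerm_le (a : ℝ) (i : Fin n) (g : Disorder n) : |siteTerm a i g| ≤ n :=
  abs_av2_le (isProb_gibbsWith a g) fun x y => by
    rw [abs_mul, abs_mul, abs_spin, abs_spin, one_mul, one_mul]; exact abs_dot_le x y

theorem ovTwo_le_sq {μ : Cube n → ℝ} (h : IsProb μ) : ovTwo μ ≤ (n : ℝ) ^ 2 := by
  refine le_trans (av2_mono h fun x y => ?_) (av2_const h _).le
  rw [← sq_abs]
  exact pow_le_pow_left₀ (abs_nonneg _) (abs_dot_le x y) 2

@[fun_prop]
theorem continuous_energy (x : Cube n) : Continuous fun g : Disorder n => energy g x := by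
  unfold energy; fun_prop

@[fun_prop]
theorem continuous_gibbsWith (a : ℝ) (x : Cube n) :
    Continuous fun g : Disorder n => gibbsWith a g x := by
  unfold gibbsWith
  fun_prop (disch := exact fun g => (Finset.sum_pos (fun _ _ => exp_pos _)
    Finset.univ_nonempty).ne')

@[fun_prop]
theorem continuous_ovTwo (a : ℝ) : Continuous fun g : Disorder n => ovTwo (gibbsWith a g) := by
  unfold ovTwo av2 av; fun_prop

@[fun_prop]
theorem continuous_ovFour (a : ℝ) : Continuous fun g : Disorder n => ovFour (gibbsWith a g) := by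
  unfold ovFour av2 av; fun_prop

@[fun_prop]
theorem continuous_siteTerm (a : ℝ) (i : Fin n) : Continuous (siteTerm a i) := by
  unfold siteTerm av2 av; fun_prop

theorem measurableSet_good (a L B : ℝ) : MeasurableSet {g : Disorder n | Good a L B g} := by
  simp only [Good, Set.ofPred_and]
  exact (isClosed_le (by fun_prop) continuous_const).measurableSet.inter
    (isClosed_le (by fun_prop) continuous_const).measurableSet

theorem integrable_good_mul (a L B : ℝ) {f : Disorder n → ℝ} (hf : Continuous f) {c : ℝ}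
    (hb : ∀ g, |f g| ≤ c) : Integrable (fun g => ind (Good a L B g) * f g) (disorderLaw n) := by
  refine integrable_ind_mul (measurableSet_good a L B) ?_
  unfold disorderLaw
  exact Integrable.of_bound hf.aestronglyMeasurable c (.of_forall fun g => by simpa using hb g)

/-- Exchangeability: all sites contribute equally on a symmetric event. -/
theorem site_exchange (a L B : ℝ) (i : Fin (n + 1)) :
    ∫ g, ind (Good a L B g) * siteTerm a i g ∂disorderLaw (n + 1) =
      ∫ g, ind (Good a L B g) * siteTerm a 0 g ∂disorderLaw (n + 1) := by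
  set σ : Equiv.Perm (Fin (n + 1)) := Equiv.swap 0 i
  have hmp : MeasurePreserving (permute σ) (disorderLaw (n + 1)) (disorderLaw (n + 1)) :=
    measurePreserving_injective (Sym2.map.injective σ.injective)
  have key : ∀ g, ind (Good a L B g) * siteTerm a i g =
      ind (Good a L B (permute σ g)) * siteTerm a 0 (permute σ g) := by
    intro g
    simp only [Good, ovTwo, ovFour, siteTerm, av2_permute, dot_comp, Function.comp_apply, σ,
      Equiv.swap_apply_left]
  simp only [key]
  have hint : AEStronglyMeasurable (fun g => ind (Good a L B g) * siteTerm a 0 g)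
      (disorderLaw (n + 1)) :=
    (integrable_good_mul a L B (continuous_siteTerm a 0) (abs_siteTerm_le a 0)).1
  nth_rewrite 2 [← hmp.map_eq]
  rw [integral_map hmp.1.aemeasurable (hmp.map_eq.symm ▸ hint)]

theorem good_ovTwo_eq (a L B : ℝ) :
    ∫ g, ind (Good a L B g) * ovTwo (gibbsWith a g) ∂disorderLaw (n + 1) =
      ((n : ℝ) + 1) * ∫ g, ind (Good a L B g) * siteTerm a 0 g ∂disorderLaw (n + 1) := by
  simp only [ovTwo_sum_site, Finset.mul_sum]
  rw [integral_finsetSum _ fun i _ =>
    integrable_good_mul a L B (continuous_siteTerm a i) (abs_siteTerm_le a i)]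
  simp [site_exchange]

/-- Average for the measure with one more site, in terms of the old measure and the field. -/
def tiltAv2 (μ : Cube n → ℝ) (a : ℝ) (ξ : Fin n → ℝ)
    (K : Cube (n + 1) → Cube (n + 1) → ℝ) : ℝ :=
  av2 μ (fun x y => ∑ b, ∑ c, exp (spin b * field a x ξ) * exp (spin c * field a y ξ) *
    K (Fin.cons b x) (Fin.cons c y)) / (4 * dS μ a ξ ^ 2)

theorem sum_cube_succ (F : Cube (n + 1) → ℝ) :
    ∑ z, F z = ∑ y : Cube n, ∑ b, F (Fin.cons b y) := by
  rw [← (Fin.consEquiv (fun _ : Fin (n + 1) => Bool)).sum_comp, Fintype.sum_prod_type,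
    Finset.sum_comm]
  rfl

theorem gibbsWith_cons (a : ℝ) (g : Disorder (n + 1)) (b : Bool) (y : Cube n) :
    gibbsWith a g (Fin.cons b y) = gibbsWith a (oldPart g) y *
      exp (spin b * field a y (newPart g)) / (2 * dS (gibbsWith a (oldPart g)) a (newPart g)) := by
  have hex : ∀ (c : Bool) (z : Cube n), exp (a * energy g (Fin.cons c z)) =
      exp (a * energy (oldPart g) z) * exp (spin c * field a z (newPart g)) := by
    intro c z
    rw [energy_cons, ← exp_add]
    congr 1
    simp only [field, Finset.mul_sum, mul_add]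
    congr 1
    exact Finset.sum_congr rfl fun i _ => by ring
  have hZ : ∑ z, exp (a * energy g z) =
      (∑ z, exp (a * energy (oldPart g) z)) *
        (2 * dS (gibbsWith a (oldPart g)) a (newPart g)) := by
    rw [sum_cube_succ]
    simp only [hex, Fintype.sum_bool]
    have hpos : 0 < ∑ z, exp (a * energy (oldPart g) z) :=
      Finset.sum_pos (fun _ _ => exp_pos _) Finset.univ_nonempty
    simp only [dS, av, gibbsWith, Finset.mul_sum]
    refine Finset.sum_congr rfl fun z _ => ?_
    rw [cosh_eq]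
    field_simp
    simp [spin]
  unfold gibbsWith at *
  rw [hex, hZ]
  field_simp

theorem av2_cons (a : ℝ) (g : Disorder (n + 1)) (K : Cube (n + 1) → Cube (n + 1) → ℝ) :
    av2 (gibbsWith a g) K = tiltAv2 (gibbsWith a (oldPart g)) a (newPart g) K := by
  simp only [tiltAv2, av2, av, Finset.sum_div, Finset.mul_sum]
  rw [sum_cube_succ]
  refine Finset.sum_congr rfl fun x _ => ?_
  conv_lhs => enter [2, b]; rw [sum_cube_succ]
  rw [Finset.sum_comm]
  refine Finset.sum_congr rfl fun y _ => ?_
  refine Finset.sum_congr rfl fun b _ => Finset.sum_congr rfl fun c _ => ?_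
  simp only [gibbsWith_cons]
  have := one_le_dS (isProb_gibbsWith a (oldPart g)) a (newPart g)
  field_simp
  ring

theorem dot_cons (b c : Bool) (x y : Cube n) :
    dot (Fin.cons b x) (Fin.cons c y) = spin b * spin c + dot x y := by
  simp [dot, Fin.sum_univ_succ]

theorem tilt_ovTwo (μ : Cube n → ℝ) (hμ : IsProb μ) (a : ℝ) (ξ : Fin n → ℝ) :
    tiltAv2 μ a ξ (fun x y => dot x y ^ 2) =
      qS μ a ξ / dS μ a ξ ^ 2 + 2 * (wS μ a ξ / dS μ a ξ ^ 2) + 1 := by
  have hd' : dS μ a ξ ≠ 0 := by have := one_le_dS hμ a ξ; positivity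
  have hd : dS μ a ξ ^ 2 ≠ 0 := pow_ne_zero 2 hd'
  have e : ∀ x y : Cube n, (∑ b, ∑ c, exp (spin b * field a x ξ) * exp (spin c * field a y ξ) *
      dot (Fin.cons b x) (Fin.cons c y) ^ 2) =
      4 * (dot x y ^ 2 * (cosh (field a x ξ) * cosh (field a y ξ))) +
      (8 * (dot x y * (sinh (field a x ξ) * sinh (field a y ξ))) +
        4 * (cosh (field a x ξ) * cosh (field a y ξ))) := by
    intro x y
    simp [dot_cons, spin, cosh_eq, sinh_eq]
    ring
  simp only [tiltAv2, e, av2_add, av2_mul_left]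
  have hcc : av2 μ (fun x y => cosh (field a x ξ) * cosh (field a y ξ)) = dS μ a ξ ^ 2 := by
    rw [av2_prod, sq]; rfl
  rw [hcc, show av2 μ (fun x y => dot x y ^ 2 * (cosh (field a x ξ) * cosh (field a y ξ)))
      = qS μ a ξ from rfl,
    show av2 μ (fun x y => dot x y * (sinh (field a x ξ) * sinh (field a y ξ)))
      = wS μ a ξ from rfl]
  field_simp
  ring

theorem tilt_site (μ : Cube n → ℝ) (hμ : IsProb μ) (a : ℝ) (ξ : Fin n → ℝ) :
    tiltAv2 μ a ξ (fun x y => spin (x 0) * spin (y 0) * dot x y) =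
      1 + wS μ a ξ / dS μ a ξ ^ 2 := by
  have hd' : dS μ a ξ ≠ 0 := by have := one_le_dS hμ a ξ; positivity
  have hd : dS μ a ξ ^ 2 ≠ 0 := pow_ne_zero 2 hd'
  have e : ∀ x y : Cube n, (∑ b, ∑ c, exp (spin b * field a x ξ) * exp (spin c * field a y ξ) *
      (spin ((Fin.cons b x : Cube (n + 1)) 0) * spin ((Fin.cons c y : Cube (n + 1)) 0) *
        dot (Fin.cons b x) (Fin.cons c y))) =
      4 * (cosh (field a x ξ) * cosh (field a y ξ)) +
      4 * (dot x y * (sinh (field a x ξ) * sinh (field a y ξ))) := by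
    intro x y
    simp [dot_cons, spin, cosh_eq, sinh_eq]
    ring
  simp only [tiltAv2, e, av2_add, av2_mul_left]
  have hcc : av2 μ (fun x y => cosh (field a x ξ) * cosh (field a y ξ)) = dS μ a ξ ^ 2 := by
    rw [av2_prod, sq]; rfl
  rw [hcc, show av2 μ (fun x y => dot x y * (sinh (field a x ξ) * sinh (field a y ξ)))
      = wS μ a ξ from rfl]
  field_simp

/-- `⟨(x·y)^4⟩` after the step. -/
def fourNext (μ : Cube n → ℝ) (a : ℝ) (ξ : Fin n → ℝ) : ℝ :=
  tiltAv2 μ a ξ fun x y => dot x y ^ 4

theorem tilt_mono {μ : Cube n → ℝ} (hμ : IsProb μ) (a : ℝ) (ξ : Fin n → ℝ)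
    {K K' : Cube (n + 1) → Cube (n + 1) → ℝ} (h : ∀ x y, K x y ≤ K' x y) :
    tiltAv2 μ a ξ K ≤ tiltAv2 μ a ξ K' := by
  refine div_le_div_of_nonneg_right (av2_mono hμ fun x y => Finset.sum_le_sum fun b _ =>
    Finset.sum_le_sum fun c _ => mul_le_mul_of_nonneg_left (h _ _) (by positivity)) ?_
  positivity

theorem tilt_affine {μ : Cube n → ℝ} (hμ : IsProb μ) (a : ℝ) (ξ : Fin n → ℝ)
    (K : Cube (n + 1) → Cube (n + 1) → ℝ) (p q : ℝ) :
    tiltAv2 μ a ξ (fun x y => p * K x y + q) = p * tiltAv2 μ a ξ K + q := by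
  have hd' : dS μ a ξ ≠ 0 := by have := one_le_dS hμ a ξ; positivity
  have hd : dS μ a ξ ^ 2 ≠ 0 := pow_ne_zero 2 hd'
  have e : ∀ x y : Cube n, (∑ b, ∑ c, exp (spin b * field a x ξ) * exp (spin c * field a y ξ) *
      (p * K (Fin.cons b x) (Fin.cons c y) + q)) =
      p * (∑ b, ∑ c, exp (spin b * field a x ξ) * exp (spin c * field a y ξ) *
        K (Fin.cons b x) (Fin.cons c y)) +
      4 * q * (cosh (field a x ξ) * cosh (field a y ξ)) := by
    intro x y
    simp [spin, cosh_eq]
    ring
  simp only [tiltAv2, e, av2_add, av2_mul_left]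
  rw [show av2 μ (fun x y => cosh (field a x ξ) * cosh (field a y ξ)) = dS μ a ξ ^ 2 by
    rw [av2_prod, sq]; rfl]
  field_simp

theorem tilt_old_four (μ : Cube n → ℝ) (hμ : IsProb μ) (a : ℝ) (ξ : Fin n → ℝ) :
    tiltAv2 μ a ξ (fun x y => dot (Fin.tail x) (Fin.tail y) ^ 4) =
      qFour μ a ξ / dS μ a ξ ^ 2 := by
  have hd' : dS μ a ξ ≠ 0 := by have := one_le_dS hμ a ξ; positivity
  have hd : dS μ a ξ ^ 2 ≠ 0 := pow_ne_zero 2 hd'
  have e : ∀ x y : Cube n, (∑ b, ∑ c, exp (spin b * field a x ξ) * exp (spin c * field a y ξ) *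
      dot (Fin.tail (Fin.cons b x : Cube (n + 1))) (Fin.tail (Fin.cons c y : Cube (n + 1))) ^ 4) =
      4 * (dot x y ^ 4 * (cosh (field a x ξ) * cosh (field a y ξ))) := by
    intro x y
    simp [Fin.tail_cons, spin, cosh_eq]
    ring
  simp only [tiltAv2, e, av2_mul_left, qFour]
  field_simp

theorem dot_split (x y : Cube (n + 1)) :
    dot x y = spin (x 0) * spin (y 0) + dot (Fin.tail x) (Fin.tail y) := by
  simp [dot, Fin.sum_univ_succ, Fin.tail]

theorem shift_four (d e : ℝ) (he : e = 1 ∨ e = -1) :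
    (e + d) ^ 4 ≤ 8 * d ^ 4 + 8 ∧ d ^ 4 ≤ 8 * (e + d) ^ 4 + 8 := by
  rcases he with rfl | rfl <;> constructor <;>
    nlinarith [sq_nonneg (d + 1), sq_nonneg (d - 1), sq_nonneg (d ^ 2 - 1), sq_nonneg d,
      sq_nonneg (d ^ 2 + 2 * d + 2), sq_nonneg (d ^ 2 - 2 * d + 2), sq_nonneg (d + 2),
      sq_nonneg (d - 2)]

theorem fourNext_upper (μ : Cube n → ℝ) (hμ : IsProb μ) (a : ℝ) (ξ : Fin n → ℝ) :
    fourNext μ a ξ ≤ 8 * (qFour μ a ξ / dS μ a ξ ^ 2) + 8 := by
  rw [← tilt_old_four μ hμ, ← tilt_affine hμ]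
  refine tilt_mono hμ a ξ fun x y => ?_
  rw [dot_split]
  exact (shift_four _ _ (by cases x 0 <;> cases y 0 <;> simp [spin])).1

theorem fourNext_lower (μ : Cube n → ℝ) (hμ : IsProb μ) (a : ℝ) (ξ : Fin n → ℝ) :
    qFour μ a ξ ≤ dS μ a ξ ^ 2 * (8 * fourNext μ a ξ + 8) := by
  have hd : 0 < dS μ a ξ ^ 2 := by have := one_le_dS hμ a ξ; positivity
  rw [mul_comm, ← div_le_iff₀ hd, ← tilt_old_four μ hμ, fourNext, ← tilt_affine hμ]
  refine tilt_mono hμ a ξ fun x y => ?_
  rw [dot_split x y]
  exact (shift_four _ _ (by cases x 0 <;> cases y 0 <;> simp [spin])).2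

theorem continuous_fourNext (μ : Cube n → ℝ) (hμ : IsProb μ) (a : ℝ) :
    Continuous (fourNext μ a) := by
  have hd : ∀ ξ, 4 * dS μ a ξ ^ 2 ≠ 0 := fun ξ => by have := one_le_dS hμ a ξ; positivity
  unfold fourNext tiltAv2 av2 av
  fun_prop (disch := exact hd)

/-- The event after the step, as a function of the old couplings and the new field. -/
def GoodNext (a L B : ℝ) (z : Disorder n × (Fin n → ℝ)) : Prop :=
  fourNext (gibbsWith a z.1) a z.2 ≤ L ∧
    qS (gibbsWith a z.1) a z.2 / dS (gibbsWith a z.1) a z.2 ^ 2 +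
      2 * (wS (gibbsWith a z.1) a z.2 / dS (gibbsWith a z.1) a z.2 ^ 2) + 1 ≤ B

theorem good_iff_next (a L B : ℝ) (g : Disorder (n + 1)) :
    Good a L B g ↔ GoodNext a L B (oldPart g, newPart g) := by
  simp only [Good, GoodNext, ovFour, ovTwo, av2_cons, fourNext,
    tilt_ovTwo _ (isProb_gibbsWith a _)]

theorem measurePreserving_parts :
    MeasurePreserving (fun g : Disorder (n + 1) => (oldPart g, newPart g))
      (disorderLaw (n + 1)) ((disorderLaw n).prod (gauss (Fin n))) := by
  let e : Sym2 (Fin n) ⊕ Fin n → Sym2 (Fin (n + 1)) :=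
    Sum.elim (Sym2.map Fin.succ) fun i => s(0, i.succ)
  have he : Function.Injective e := by
    refine Function.Injective.sumElim (Sym2.map.injective (Fin.succ_injective n))
      (fun i j h => Fin.succ_injective n (Sym2.congr_right.1 h)) ?_
    intro p i h
    induction p using Sym2.ind with
    | h u v => simp [Fin.succ_ne_zero] at h
  have h1 := measurePreserving_injective he
  have h2 := measurePreserving_sumPiEquivProdPi
    (fun _ : Sym2 (Fin n) ⊕ Fin n => gaussianReal 0 1)
  exact h2.comp h1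

theorem integral_parts {f : Disorder n × (Fin n → ℝ) → ℝ}
    (hf : Integrable f ((disorderLaw n).prod (gauss (Fin n)))) :
    ∫ g, f (oldPart g, newPart g) ∂disorderLaw (n + 1) =
      ∫ o, ∫ ξ, f (o, ξ) ∂gauss (Fin n) ∂disorderLaw n := by
  have : SFinite (disorderLaw n) := by unfold disorderLaw; infer_instance
  rw [← integral_prod f hf, ← measurePreserving_parts.map_eq,
    integral_map measurePreserving_parts.1.aemeasurable
      (measurePreserving_parts.map_eq.symm ▸ hf.1)]

/-- The mean of `⟨(x·y)^2⟩` on the event `Good`. -/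
def mass (n : ℕ) (a L B : ℝ) : ℝ :=
  ∫ g, ind (Good a L B g) * ovTwo (gibbsWith a g) ∂disorderLaw n

/-- The probability of `Good`. -/
def chance (n : ℕ) (a L B : ℝ) : ℝ := ∫ g, ind (Good a L B g) ∂disorderLaw n

instance instIsProbabilityMeasureDisorderLaw (n : ℕ) : IsProbabilityMeasure (disorderLaw n) := by
  unfold disorderLaw; infer_instance

theorem cavity_step {a η r L B M p : ℝ} (ha : a ≠ 0) (hr : 1 ≤ r) (hn : (n : ℝ) = r ^ 4)
    (hη : 0 < η) (hη1 : η ≤ 1 / 16) (hnη : 1 ≤ η * n) (hL : 1 ≤ L) (hLr : L ≤ r ^ 9)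
    (hB : 0 ≤ B) (hM : 0 < M) (hLM : L / M ≤ r ^ 10)
    (hp : badC n a / (η ^ 2 * r) + 16 * meanCosh n a ^ 2 * envC n a / M ≤ p) (hp0 : 0 < p) :
    (n : ℝ) * (1 - p) * chance n a (L / M) (B / (1 + 16 * η)) +
        (1 - 1 / (n : ℝ)) * fieldVar n a * (1 - 100 * sqrt p) / (1 + η) ^ 2 *
          mass n a (L / M) (B / (1 + 16 * η)) - 2 * envC n a * fieldVar n a ^ 3 * r ^ 2 ≤
      (1 + 8 * η) * mass n a (64 * meanCosh n a ^ 2 * L) (B * (1 + 8 * η)) +
        B * (badC n a / (η ^ 2 * r)) := by
  have hn1 : (1 : ℝ) ≤ n := by rw [hn]; exact one_le_pow₀ hr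
  have hc1 : Continuous (fun z : Disorder n × (Fin n → ℝ) =>
      fourNext (gibbsWith a z.1) a z.2) := by
    have hd : ∀ z : Disorder n × (Fin n → ℝ), 4 * dS (gibbsWith a z.1) a z.2 ^ 2 ≠ 0 := fun z => by
      have := one_le_dS (isProb_gibbsWith a z.1) a z.2
      positivity
    unfold fourNext tiltAv2 av2 av
    have hdc : Continuous (fun z : Disorder n × (Fin n → ℝ) => dS (gibbsWith a z.1) a z.2) := by
      unfold dS av field; fun_prop
    unfold field
    fun_prop (disch := exact hd)
  have hdc : Continuous (fun z : Disorder n × (Fin n → ℝ) => dS (gibbsWith a z.1) a z.2) := by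
    unfold dS av field; fun_prop
  have hd : ∀ z : Disorder n × (Fin n → ℝ), dS (gibbsWith a z.1) a z.2 ^ 2 ≠ 0 := fun z => by
    have := one_le_dS (isProb_gibbsWith a z.1) a z.2
    positivity
  have hqc : Continuous (fun z : Disorder n × (Fin n → ℝ) =>
      qS (gibbsWith a z.1) a z.2 / dS (gibbsWith a z.1) a z.2 ^ 2) := by
    refine Continuous.div ?_ (hdc.pow 2) hd
    unfold qS av2 av field; fun_prop
  have hwc : Continuous (fun z : Disorder n × (Fin n → ℝ) =>
      wS (gibbsWith a z.1) a z.2 / dS (gibbsWith a z.1) a z.2 ^ 2) := by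
    refine Continuous.div ?_ (hdc.pow 2) hd
    unfold wS av2 av field; fun_prop
  set fQ := fun z : Disorder n × (Fin n → ℝ) =>
    ind (GoodNext a L B z) * (qS (gibbsWith a z.1) a z.2 / dS (gibbsWith a z.1) a z.2 ^ 2)
    with hfQ
  set fW := fun z : Disorder n × (Fin n → ℝ) =>
    ind (GoodNext a L B z) * (wS (gibbsWith a z.1) a z.2 / dS (gibbsWith a z.1) a z.2 ^ 2)
    with hfW
  set fG := fun z : Disorder n × (Fin n → ℝ) => ind (GoodNext a L B z) with hfG
  have hmG : MeasurableSet {z : Disorder n × (Fin n → ℝ) | GoodNext a L B z} := by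
    simp only [GoodNext, Set.ofPred_and]
    exact (isClosed_le hc1 continuous_const).measurableSet.inter
      (isClosed_le ((hqc.add (hwc.const_mul 2)).add continuous_const)
        continuous_const).measurableSet
  have hq0 : ∀ z : Disorder n × (Fin n → ℝ),
      0 ≤ qS (gibbsWith a z.1) a z.2 / dS (gibbsWith a z.1) a z.2 ^ 2 := fun z =>
    div_nonneg (av2_nonneg (isProb_gibbsWith a z.1) fun x y => mul_nonneg (sq_nonneg _)
      (mul_nonneg (cosh_pos _).le (cosh_pos _).le)) (sq_nonneg _)
  have hw0 : ∀ z : Disorder n × (Fin n → ℝ),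
      0 ≤ wS (gibbsWith a z.1) a z.2 / dS (gibbsWith a z.1) a z.2 ^ 2 := fun z =>
    div_nonneg (wS_nonneg _ _ _) (sq_nonneg _)
  have hbd : ∀ z, ‖fQ z‖ ≤ B ∧ ‖fW z‖ ≤ B := by
    intro z
    simp only [hfQ, hfW, norm_mul, Real.norm_eq_abs, abs_of_nonneg (ind_nonneg _),
      abs_of_nonneg (hq0 z), abs_of_nonneg (hw0 z)]
    by_cases h : GoodNext a L B z
    · have h2 := h.2
      rw [ind_pos h, one_mul, one_mul]
      constructor <;> linarith [hq0 z, hw0 z]
    · rw [ind_neg h, zero_mul, zero_mul]; exact ⟨hB, hB⟩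
  have iG : Integrable fG ((disorderLaw n).prod (gauss (Fin n))) := integrable_ind hmG
  have iQ : Integrable fQ ((disorderLaw n).prod (gauss (Fin n))) :=
    Integrable.of_bound ((measurable_const.ite hmG measurable_const).mul
      hqc.measurable).aestronglyMeasurable B (.of_forall fun z => (hbd z).1)
  have iW : Integrable fW ((disorderLaw n).prod (gauss (Fin n))) :=
    Integrable.of_bound ((measurable_const.ite hmG measurable_const).mul
      hwc.measurable).aestronglyMeasurable B (.of_forall fun z => (hbd z).2)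
  have hid : ∫ o, ∫ ξ, fQ (o, ξ) ∂gauss (Fin n) ∂disorderLaw n =
      ∫ o, ((n : ℝ) * ∫ ξ, fG (o, ξ) ∂gauss (Fin n) +
        ((n : ℝ) - 1) * ∫ ξ, fW (o, ξ) ∂gauss (Fin n)) ∂disorderLaw n := by
    rw [integral_add (iG.integral_prod_left.const_mul _) (iW.integral_prod_left.const_mul _),
      integral_const_mul, integral_const_mul, ← integral_parts iQ, ← integral_parts iG,
      ← integral_parts iW]
    have h0 := good_ovTwo_eq (n := n) a L B
    have e1 : ∀ g : Disorder (n + 1), ind (Good a L B g) * ovTwo (gibbsWith a g) =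
        fQ (oldPart g, newPart g) + 2 * fW (oldPart g, newPart g) +
          fG (oldPart g, newPart g) := by
      intro g
      simp only [hfQ, hfW, hfG, ovTwo, av2_cons, tilt_ovTwo _ (isProb_gibbsWith a _),
        ← good_iff_next]
      ring
    have e2 : ∀ g : Disorder (n + 1), ind (Good a L B g) * siteTerm a 0 g =
        fG (oldPart g, newPart g) + fW (oldPart g, newPart g) := by
      intro g
      simp only [hfW, hfG, siteTerm, av2_cons, tilt_site _ (isProb_gibbsWith a _),
        ← good_iff_next]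
      ring
    simp only [e1, e2] at h0
    have jQ := (measurePreserving_parts (n := n)).integrable_comp_of_integrable iQ
    have jW := (measurePreserving_parts (n := n)).integrable_comp_of_integrable iW
    have jG := (measurePreserving_parts (n := n)).integrable_comp_of_integrable iG
    simp only [Function.comp_def] at jQ jW jG
    rw [integral_add (jQ.fun_add (jW.const_mul 2)) jG, integral_add jQ (jW.const_mul 2),
      integral_const_mul, integral_add jG jW] at h0
    linarith
  have hup : ∀ o, ∫ ξ, fQ (o, ξ) ∂gauss (Fin n) ≤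
      (1 + 8 * η) * (ind (Good a (64 * meanCosh n a ^ 2 * L) (B * (1 + 8 * η)) o) *
        ovTwo (gibbsWith a o)) + B * (badC n a / (η ^ 2 * r)) := by
    intro o
    have hμ := isProb_gibbsWith a o
    refine le_trans (upper_step hμ ha hr hn hη hη1 hL hLr hB (fourNext (gibbsWith a o) a)
      (continuous_fourNext _ hμ a) (fourNext_lower _ hμ a)) (le_of_eq ?_)
    simp only [Good]
    ring
  have hlo : ∀ o, (n : ℝ) * (1 - p) * ind (Good a (L / M) (B / (1 + 16 * η)) o) +
      (1 - 1 / (n : ℝ)) * fieldVar n a * (1 - 100 * sqrt p) / (1 + η) ^ 2 *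
        (ind (Good a (L / M) (B / (1 + 16 * η)) o) * ovTwo (gibbsWith a o)) -
        2 * envC n a * fieldVar n a ^ 3 * r ^ 2 ≤
      (n : ℝ) * ∫ ξ, fG (o, ξ) ∂gauss (Fin n) +
        ((n : ℝ) - 1) * ∫ ξ, fW (o, ξ) ∂gauss (Fin n) := by
    intro o
    have hμ := isProb_gibbsWith a o
    by_cases h : Good a (L / M) (B / (1 + 16 * η)) o
    · rw [ind_pos h, mul_one, one_mul]
      refine le_trans (le_of_eq ?_) (lower_step hμ ha hr hn hη hη1 hnη (by linarith) hM
        (h.1.trans hLM) h.1 h.2 hp hp0 (fourNext (gibbsWith a o) a)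
        (continuous_fourNext _ hμ a) (fourNext_upper _ hμ a))
      ring
    · rw [ind_neg h, zero_mul, mul_zero, mul_zero, add_zero, zero_sub]
      have i1 : 0 ≤ ∫ ξ, fG (o, ξ) ∂gauss (Fin n) := integral_nonneg fun ξ => ind_nonneg _
      have i2 : 0 ≤ ∫ ξ, fW (o, ξ) ∂gauss (Fin n) :=
        integral_nonneg fun ξ => mul_nonneg (ind_nonneg _) (hw0 (o, ξ))
      have i3 : 0 ≤ 2 * envC n a * fieldVar n a ^ 3 * r ^ 2 := by
        have := one_le_envC n a
        have := fieldVar_nonneg n a
        positivity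
      have := mul_nonneg (show (0:ℝ) ≤ n - 1 by linarith) i2
      have := mul_nonneg (show (0:ℝ) ≤ n by linarith) i1
      linarith
  have ig : ∀ L B, Integrable (fun o : Disorder n => ind (Good a L B o)) (disorderLaw n) :=
    fun L B => integrable_ind (measurableSet_good a L B)
  have is : ∀ L B, Integrable (fun o : Disorder n => ind (Good a L B o) *
      ovTwo (gibbsWith a o)) (disorderLaw n) := fun L B =>
    integrable_good_mul a L B (continuous_ovTwo a) fun g => by
      rw [abs_of_nonneg (ovTwo_nonneg (isProb_gibbsWith a g))]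
      exact ovTwo_le_sq (isProb_gibbsWith a g)
  have hl := integral_mono ((((ig _ _).const_mul _).add ((is _ _).const_mul _)).sub
    (integrable_const _)) ((iG.integral_prod_left.const_mul _).add
    (iW.integral_prod_left.const_mul _)) hlo
  have hu := integral_mono iQ.integral_prod_left (((is _ _).const_mul _).add (integrable_const _)) hup
  simp only [Pi.add_apply, Pi.sub_apply] at hl hu
  rw [integral_sub (((ig _ _).const_mul _).fun_add ((is _ _).const_mul _)) (integrable_const _),
    integral_add ((ig _ _).const_mul _) ((is _ _).const_mul _), integral_const_mul,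
    integral_const_mul, integral_const, probReal_univ, one_smul, ← hid] at hl
  rw [integral_add ((is _ _).const_mul _) (integrable_const _), integral_const_mul,
    integral_const, probReal_univ, one_smul] at hu
  exact hl.trans hu

end

end Vale.Agent.P150
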