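import Mathlib
import Vale.Agent.P150.Cavity

/-!
A spectral gap bounds the second and fourth overlap moments; slow relaxation bounds mixing.
-/

namespace Vale.Agent.P150

open MeasureTheory Finset Real

noncomputable section

variable {n : ℕ} {μ : Cube n → ℝ}

theorem flipAt_flipAt (i : Fin n) (x : Cube n) : flipAt i (flipAt i x) = x := by
  simp [flipAt, Function.update_idem]

/-- Flipping spin `i`, as a permutation of configurations. -/
def flipEquiv (i : Fin n) : Cube n ≃ Cube n :=
  Function.Involutive.toPerm (flipAt i) (flipAt_flipAt i)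

theorem flipProb_nonneg (h : IsProb μ) (i : Fin n) (x : Cube n) : 0 ≤ flipProb μ i x :=
  div_nonneg (h.1 _) (add_nonneg (h.1 _) (h.1 _))

theorem flipProb_le_one (h : IsProb μ) (i : Fin n) (x : Cube n) : flipProb μ i x ≤ 1 :=
  div_le_one_of_le₀ (le_add_of_nonneg_left (h.1 _)) (add_nonneg (h.1 _) (h.1 _))

theorem flux_symm (μ : Cube n → ℝ) (i : Fin n) (x : Cube n) :
    μ (flipAt i x) * flipProb μ i (flipAt i x) = μ x * flipProb μ i x := by
  simp only [flipProb, flipAt_flipAt]
  rw [add_comm (μ (flipAt i x)) (μ x)]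
  ring

theorem sum_flux_le (h : IsProb μ) (i : Fin n) :
    ∑ x, μ x * flipProb μ i x ≤ 1 / 2 := by
  have hb : ∀ x, μ x * flipProb μ i x ≤ (μ x + μ (flipAt i x)) / 4 := by
    intro x
    rw [flipProb, ← mul_div_assoc]
    rcases (add_nonneg (h.1 x) (h.1 (flipAt i x))).eq_or_lt with h0 | h0
    · rw [← h0]; simp
    · rw [div_le_div_iff₀ h0 (by norm_num)]
      nlinarith [sq_nonneg (μ x - μ (flipAt i x))]
  refine (Finset.sum_le_sum fun x _ => hb x).trans (le_of_eq ?_)
  rw [← Finset.sum_div, Finset.sum_add_distrib,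
    show ∑ x, μ (flipAt i x) = ∑ x, μ x from (flipEquiv i).sum_comp μ, h.2]
  norm_num

/-- A linear function of the spins. -/
def lin (v : Fin n → ℝ) (x : Cube n) : ℝ := ∑ i, v i * spin (x i)

theorem lin_flip (v : Fin n → ℝ) (i : Fin n) (x : Cube n) :
    lin v (flipAt i x) = lin v x - 2 * v i * spin (x i) := by
  have e : ∀ j, v j * spin (flipAt i x j) =
      v j * spin (x j) - if j = i then 2 * v i * spin (x i) else 0 := by
    intro j
    by_cases hj : j = i
    · subst hj
      cases hx : x j <;> simp [flipAt, spin, hx] <;> ring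
    · simp [flipAt, hj]
  simp [lin, e, Finset.sum_sub_distrib]

/-- `μ` is invariant under the global spin flip. -/
def SpinSymm (μ : Cube n → ℝ) : Prop := ∀ x, μ (fun i => !x i) = μ x

theorem spinSymm_gibbsWith (a : ℝ) (g : Disorder n) : SpinSymm (gibbsWith a g) := by
  intro x
  have : energy g (fun i => !x i) = energy g x := by
    refine Finset.sum_congr rfl fun p _ => ?_
    cases hx1 : x p.1 <;> cases hx2 : x p.2 <;> simp [spin, hx1, hx2]
  rw [gibbsWith, gibbsWith, this]

theorem av_lin_zero (hs : SpinSymm μ) (v : Fin n → ℝ) : av μ (lin v) = 0 := by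
  let e : Cube n ≃ Cube n :=
    Function.Involutive.toPerm (fun x i => !x i) (fun x => by funext i; simp)
  have hlin : ∀ x : Cube n, lin v (fun i => !x i) = -lin v x := by
    intro x
    simp only [lin, ← Finset.sum_neg_distrib]
    refine Finset.sum_congr rfl fun i _ => ?_
    cases hx : x i <;> simp [spin, hx]
  have h2 : av μ (lin v) = -av μ (lin v) := by
    calc av μ (lin v) = ∑ x : Cube n, μ (fun i => !x i) * lin v (fun i => !x i) :=
          (e.sum_comp fun x => μ x * lin v x).symm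
      _ = _ := by
          simp only [av, ← Finset.sum_neg_distrib]
          exact Finset.sum_congr rfl fun x _ => by rw [hs x, hlin x, mul_neg]
  linarith

theorem dirichlet_lin_le (h : IsProb μ) (v : Fin n → ℝ) :
    dirichlet μ (lin v) ≤ ∑ i, v i ^ 2 := by
  simp only [dirichlet, lin_flip]
  rw [Finset.sum_comm, Finset.mul_sum]
  refine Finset.sum_le_sum fun i _ => ?_
  have e : ∀ x, μ x * flipProb μ i x * (lin v x - 2 * v i * spin (x i) - lin v x) ^ 2 =
      4 * v i ^ 2 * (μ x * flipProb μ i x) := by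
    intro x
    linear_combination (4 * v i ^ 2 * (μ x * flipProb μ i x)) * spin_mul_self (x i)
  simp only [e, ← Finset.mul_sum]
  calc 1 / 2 * (4 * v i ^ 2 * ∑ x, μ x * flipProb μ i x)
      ≤ 1 / 2 * (4 * v i ^ 2 * (1 / 2)) := by gcongr; exact sum_flux_le h i
    _ = _ := by ring

theorem variance_eq (h : IsProb μ) (f : Cube n → ℝ) :
    variance μ f = av μ (fun x => f x ^ 2) - av μ f ^ 2 := by
  have e : ∀ x, (f x - av μ f) ^ 2 = f x ^ 2 + (-2 * av μ f) * f x + av μ f ^ 2 := fun x => by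
    ring
  change av μ (fun x => (f x - av μ f) ^ 2) = _
  simp only [e, av_add, av_mul_left, av_const h]
  ring

theorem gap_second (h : IsProb μ) (hs : SpinSymm μ) {c : ℝ} (hc : 0 < c) (hg : HasGap μ c)
    (v : Fin n → ℝ) : av μ (fun x => lin v x ^ 2) ≤ (∑ i, v i ^ 2) / c := by
  rw [le_div_iff₀ hc, mul_comm]
  calc c * av μ (fun x => lin v x ^ 2) = c * variance μ (lin v) := by
        rw [variance_eq h, av_lin_zero hs]; ring
    _ ≤ _ := (hg _).trans (dirichlet_lin_le h v)

theorem gap_fourth (h : IsProb μ) (hs : SpinSymm μ) {c : ℝ} (hc : 0 < c) (hc1 : c ≤ 1)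
    (hg : HasGap μ c) (v : Fin n → ℝ) :
    av μ (fun x => lin v x ^ 4) ≤ 33 * (∑ i, v i ^ 2) ^ 2 / c ^ 2 := by
  set N := ∑ i, v i ^ 2 with hN
  have hN0 : 0 ≤ N := Finset.sum_nonneg fun i _ => sq_nonneg _
  have h2 := gap_second h hs hc hg v
  have h20 : 0 ≤ av μ (fun x => lin v x ^ 2) := av_nonneg h fun x => sq_nonneg _
  have hd : dirichlet μ (fun x => lin v x ^ 2) ≤
      16 * N * av μ (fun x => lin v x ^ 2) + 16 * N ^ 2 := by
    simp only [dirichlet, lin_flip]
    have hb : ∀ x i, μ x * flipProb μ i x *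
        ((lin v x - 2 * v i * spin (x i)) ^ 2 - lin v x ^ 2) ^ 2 ≤
        32 * v i ^ 2 * (μ x * lin v x ^ 2) + 32 * v i ^ 4 * μ x := by
      intro x i
      have hsq : ((lin v x - 2 * v i * spin (x i)) ^ 2 - lin v x ^ 2) ^ 2 ≤
          32 * v i ^ 2 * lin v x ^ 2 + 32 * v i ^ 4 := by
        have h1 : ((lin v x - 2 * v i * spin (x i)) ^ 2 - lin v x ^ 2) ^ 2 =
            16 * v i ^ 2 * (lin v x - v i * spin (x i)) ^ 2 := by
          linear_combination (16 * v i ^ 2 * (lin v x - v i * spin (x i)) ^ 2) *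
            spin_mul_self (x i)
        have h3 : (v i * spin (x i)) ^ 2 = v i ^ 2 := by
          linear_combination (v i ^ 2) * spin_mul_self (x i)
        rw [h1]
        nlinarith [sq_nonneg (lin v x + v i * spin (x i)), sq_nonneg (v i)]
      calc _ ≤ μ x * 1 * (32 * v i ^ 2 * lin v x ^ 2 + 32 * v i ^ 4) :=
            mul_le_mul (mul_le_mul_of_nonneg_left (flipProb_le_one h i x) (h.1 x)) hsq
              (sq_nonneg _) (by simpa using h.1 x)
        _ = _ := by ring
    refine le_trans (mul_le_mul_of_nonneg_left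
      (Finset.sum_le_sum fun x _ => Finset.sum_le_sum fun i _ => hb x i) (by norm_num)) ?_
    simp only [Finset.sum_add_distrib, ← Finset.sum_mul, ← Finset.mul_sum, h.2, ← hN]
    have h4 : ∑ i, v i ^ 4 ≤ N ^ 2 := by
      calc ∑ i, v i ^ 4 ≤ ∑ i, v i ^ 2 * N := Finset.sum_le_sum fun i hi => by
            rw [show v i ^ 4 = v i ^ 2 * v i ^ 2 by ring]
            exact mul_le_mul_of_nonneg_left
              (Finset.single_le_sum (fun j _ => sq_nonneg (v j)) hi) (sq_nonneg _)
        _ = N ^ 2 := by rw [← Finset.sum_mul]; ring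
    have e : ∑ x, μ x * lin v x ^ 2 = av μ fun x => lin v x ^ 2 := rfl
    rw [e]
    linarith
  have hv := hg fun x => lin v x ^ 2
  rw [variance_eq h] at hv
  simp only [← pow_mul, show (2 : ℕ) * 2 = 4 from rfl] at hv
  have hkey : c * av μ (fun x => lin v x ^ 4) ≤
      c * av μ (fun x => lin v x ^ 2) ^ 2 + 16 * N * av μ (fun x => lin v x ^ 2) + 16 * N ^ 2 := by
    linarith [hd]
  rw [le_div_iff₀ hc] at h2
  rw [le_div_iff₀ (by positivity)]
  have e1 := mul_le_mul_of_nonneg_left hkey hc.le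
  have e2 : (av μ (fun x => lin v x ^ 2) * c) ^ 2 ≤ N ^ 2 := pow_le_pow_left₀ (by positivity) h2 2
  have e3 : N * (av μ (fun x => lin v x ^ 2) * c) ≤ N * N := mul_le_mul_of_nonneg_left h2 hN0
  have e4 : c * N ^ 2 ≤ N ^ 2 := mul_le_of_le_one_left (sq_nonneg _) hc1
  linarith

theorem dot_eq_lin (x y : Cube n) : dot x y = lin (fun i => spin (x i)) y := rfl

theorem sum_spin_sq (x : Cube n) : ∑ i, spin (x i) ^ 2 = (n : ℝ) := by
  simp [sq, spin_mul_self]

theorem gap_ovTwo (h : IsProb μ) (hs : SpinSymm μ) {c : ℝ} (hc : 0 < c) (hg : HasGap μ c) :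
    ovTwo μ ≤ n / c := by
  refine le_trans (av_mono h fun x => ?_) (av_const h _).le
  simp only [dot_eq_lin]
  exact (gap_second h hs hc hg _).trans_eq (by rw [sum_spin_sq])

theorem gap_ovFour (h : IsProb μ) (hs : SpinSymm μ) {c : ℝ} (hc : 0 < c) (hc1 : c ≤ 1)
    (hg : HasGap μ c) : ovFour μ ≤ 33 * (n : ℝ) ^ 2 / c ^ 2 := by
  refine le_trans (av_mono h fun x => ?_) (av_const h _).le
  simp only [dot_eq_lin]
  exact (gap_fourth h hs hc hc1 hg _).trans_eq (by rw [sum_spin_sq])

theorem hasGap_mono (h : IsProb μ) {c c' : ℝ} (hle : c' ≤ c) (hg : HasGap μ c) :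
    HasGap μ c' := fun f =>
  (mul_le_mul_of_nonneg_right hle
    (Finset.sum_nonneg fun x _ => mul_nonneg (h.1 x) (sq_nonneg _))).trans (hg f)

end

end Vale.Agent.P150
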