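import Mathlib
import Vale.Agent.P150.Defs

/-!
A failure of the spectral gap forces slow mixing.
-/

namespace Vale.Agent.P150

open Finset Real Matrix

noncomputable section

variable {n : ℕ} {μ : Cube n → ℝ}

theorem flux_eq (μ : Cube n → ℝ) (i : Fin n) (x : Cube n) :
    μ (flipAt i x) * flipProb μ i (flipAt i x) = μ x * flipProb μ i x := by
  have h : flipAt i (flipAt i x) = x := by simp [flipAt, Function.update_idem]
  simp only [flipProb, h]
  rw [add_comm (μ (flipAt i x)) (μ x)]
  ring

theorem generator_balance (μ : Cube n → ℝ) (x y : Cube n) :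
    μ x * generator μ x y = μ y * generator μ y x := by
  have hinv : ∀ (i : Fin n) (z : Cube n), flipAt i (flipAt i z) = z := fun i z => by
    simp [flipAt, Function.update_idem]
  simp only [generator, Finset.mul_sum]
  refine Finset.sum_congr rfl fun i _ => ?_
  by_cases hxy : y = x
  · subst hxy; rfl
  · by_cases hf : y = flipAt i x
    · subst hf
      simp only [hinv, if_true, if_neg hxy, if_neg (Ne.symm hxy), sub_zero, mul_one]
      exact (flux_eq μ i x).symm
    · have hf' : ¬ x = flipAt i y := fun h => hf (by rw [h, hinv])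
      simp [hf, hf', hxy, Ne.symm hxy]

theorem generator_mulVec (μ : Cube n → ℝ) (f : Cube n → ℝ) (x : Cube n) :
    generator μ *ᵥ f = fun x => ∑ i, flipProb μ i x * (f (flipAt i x) - f x) := by
  funext z
  simp only [Matrix.mulVec, dotProduct, generator, Finset.sum_mul]
  rw [Finset.sum_comm]
  refine Finset.sum_congr rfl fun i _ => ?_
  simp only [mul_assoc, ← Finset.mul_sum, sub_mul, Finset.sum_sub_distrib, ite_mul, one_mul,
    zero_mul, Finset.sum_ite_eq', Finset.mem_univ, if_true]

theorem dirichlet_eq (μ : Cube n → ℝ) (f : Cube n → ℝ) :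
    dirichlet μ f = -∑ x, μ x * f x * (generator μ *ᵥ f) x := by
  simp only [generator_mulVec μ f (fun _ => true), dirichlet, Finset.mul_sum,
    ← Finset.sum_neg_distrib]
  rw [Finset.sum_comm]
  conv_rhs => rw [Finset.sum_comm]
  refine Finset.sum_congr rfl fun i _ => ?_
  let e : Cube n ≃ Cube n := Function.Involutive.toPerm (flipAt i)
    (fun z => by simp [flipAt, Function.update_idem])
  set F := fun x => -(μ x * f x * (flipProb μ i x * (f (flipAt i x) - f x)))
  have hF : ∀ x, F (flipAt i x) = μ x * flipProb μ i x * f (flipAt i x) * (f (flipAt i x) - f x) := by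
    intro x
    have h : flipAt i (flipAt i x) = x := by simp [flipAt, Function.update_idem]
    simp only [F, h]
    linear_combination (f (flipAt i x) * (f (flipAt i x) - f x)) * flux_eq μ i x
  have hsum : ∑ x, F x = ∑ x, F (flipAt i x) := (e.sum_comp F).symm
  have : ∑ x, 1 / 2 * (μ x * flipProb μ i x * (f (flipAt i x) - f x) ^ 2) =
      1 / 2 * (∑ x, F x + ∑ x, F (flipAt i x)) := by
    rw [← Finset.sum_add_distrib, Finset.mul_sum]
    refine Finset.sum_congr rfl fun x _ => ?_
    rw [hF x]
    simp only [F]
    ring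
  rw [this, ← hsum]
  ring

theorem generator_pow_eigen {e : Cube n → ℝ} {l : ℝ} (A : Matrix (Cube n) (Cube n) ℝ)
    (h : A *ᵥ e = l • e) : ∀ k : ℕ, (A ^ k) *ᵥ e = l ^ k • e
  | 0 => by simp
  | k + 1 => by
    rw [pow_succ', ← Matrix.mulVec_mulVec, generator_pow_eigen A h k, Matrix.mulVec_smul, h,
      smul_smul, pow_succ]

open scoped Matrix.Norms.Operator in
theorem exp_mulVec_eigen {e : Cube n → ℝ} {l : ℝ} (A : Matrix (Cube n) (Cube n) ℝ)
    (h : A *ᵥ e = l • e) : NormedSpace.exp A *ᵥ e = Real.exp l • e := by
  have h1 := NormedSpace.exp_series_hasSum_exp' (𝕂 := ℝ) A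
  let L : Matrix (Cube n) (Cube n) ℝ →+ (Cube n → ℝ) :=
    { toFun := fun B => B *ᵥ e
      map_zero' := Matrix.zero_mulVec e
      map_add' := fun B C => Matrix.add_mulVec B C e }
  have hcont : Continuous L := Continuous.matrix_mulVec continuous_id continuous_const
  have h2 := h1.map L hcont
  have h3 : ∀ k, (L ∘ fun k => ((k.factorial : ℝ))⁻¹ • A ^ k) k =
      (((k.factorial : ℝ))⁻¹ * l ^ k) • e := by
    intro k
    simp [L, Matrix.smul_mulVec, generator_pow_eigen A h k, smul_smul]
  have h4 := (NormedSpace.exp_series_hasSum_exp' (𝕂 := ℝ) l).smul_const e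
  rw [← Real.exp_eq_exp_ℝ] at h4
  exact h2.unique (h4.congr_fun fun k => by rw [h3 k, smul_eq_mul])

/-- A nonconstant eigenfunction with small eigenvalue, from a failure of the gap. -/
theorem exists_slow_mode (hpos : ∀ x, 0 < μ x) (hsum : ∑ x, μ x = 1) {c : ℝ}
    (hng : ¬ HasGap μ c) :
    ∃ (e : Cube n → ℝ) (l : ℝ), l < c ∧ e ≠ 0 ∧ (∑ x, μ x * e x = 0) ∧
      generator μ *ᵥ e = (-l) • e := by
  set s := fun x => Real.sqrt (μ x) with hs
  have hs0 : ∀ x, 0 < s x := fun x => Real.sqrt_pos.2 (hpos x)
  have hss : ∀ x, s x * s x = μ x := fun x => Real.mul_self_sqrt (hpos x).le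
  set A : Matrix (Cube n) (Cube n) ℝ := fun x y => -(s x * generator μ x y / s y) with hA
  have hAh : A.IsHermitian := by
    refine Matrix.IsHermitian.ext fun x y => ?_
    simp only [hA, star_trivial, neg_inj]
    rw [div_eq_div_iff (hs0 _).ne' (hs0 _).ne']
    have := generator_balance μ x y
    rw [← hss x, ← hss y] at this
    linarith
  simp only [HasGap, not_forall, not_le] at hng
  obtain ⟨f, hf⟩ := hng
  set m := ∑ y, μ y * f y with hm
  set h : EuclideanSpace ℝ (Cube n) := WithLp.toLp 2 fun x => s x * (f x - m) with hh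
  set u := hAh.eigenvectorBasis
  set lam := hAh.eigenvalues
  set co := fun k => ∑ x, u k x * (s x * (f x - m)) with hco
  have hrepr : ∀ x, s x * (f x - m) = ∑ k, co k * u k x := by
    intro x
    have hb := u.sum_repr' h
    have := congrArg (fun w : EuclideanSpace ℝ (Cube n) => w x) hb
    simp only [WithLp.ofLp_sum, WithLp.ofLp_smul, Finset.sum_apply, Pi.smul_apply,
      smul_eq_mul] at this
    rw [show s x * (f x - m) = h x from rfl, ← this]
    refine Finset.sum_congr rfl fun k _ => ?_
    congr 1
    simp [hco, hh, PiLp.inner_apply, mul_comm]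
  have hvar : variance μ f = ∑ k, co k ^ 2 := by
    calc variance μ f = ∑ x, (s x * (f x - m)) * (s x * (f x - m)) := by
          simp only [variance, ← hm]
          refine Finset.sum_congr rfl fun x _ => ?_
          rw [← hss x]; ring
      _ = ∑ x, ∑ k, co k * (u k x * (s x * (f x - m))) := by
          refine Finset.sum_congr rfl fun x _ => ?_
          nth_rewrite 1 [hrepr x]
          rw [Finset.sum_mul]
          exact Finset.sum_congr rfl fun k _ => by ring
      _ = _ := by
          rw [Finset.sum_comm]
          refine Finset.sum_congr rfl fun k _ => ?_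
          rw [← Finset.mul_sum, sq]
  have hconst : ∀ c0 : ℝ, generator μ *ᵥ (fun _ => c0) = 0 := fun c0 => by
    rw [generator_mulVec μ _ (fun _ => true)]; funext x; simp
  have hcentre : generator μ *ᵥ (fun x => f x - m) = generator μ *ᵥ f := by
    rw [show (fun x => f x - m) = f - (fun _ => m) from rfl, Matrix.mulVec_sub, hconst, sub_zero]
  have hAmul : ∀ x, (A *ᵥ fun y => s y * (f y - m)) x = -(s x * (generator μ *ᵥ f) x) := by
    intro x
    rw [← hcentre]
    simp only [Matrix.mulVec, dotProduct, hA, Finset.mul_sum, ← Finset.sum_neg_distrib]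
    refine Finset.sum_congr rfl fun y _ => ?_
    field_simp [(hs0 y).ne']
  have hmean0 : ∀ w : Cube n → ℝ, ∑ x, μ x * (generator μ *ᵥ w) x = 0 := by
    intro w
    simp only [Matrix.mulVec, dotProduct, Finset.mul_sum]
    rw [Finset.sum_comm]
    refine Finset.sum_eq_zero fun y _ => ?_
    have h1 := congrFun (hconst 1) y
    simp only [Matrix.mulVec, dotProduct, mul_one, Pi.zero_apply] at h1
    calc ∑ x, μ x * (generator μ x y * w y) = ∑ x, μ y * w y * generator μ y x := by
          refine Finset.sum_congr rfl fun x _ => ?_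
          linear_combination (w y) * generator_balance μ x y
      _ = 0 := by rw [← Finset.mul_sum, h1, mul_zero]
  have hdir : dirichlet μ f = ∑ k, lam k * co k ^ 2 := by
    calc dirichlet μ f = ∑ x, (s x * (f x - m)) * (A *ᵥ fun y => s y * (f y - m)) x := by
          rw [dirichlet_eq]
          simp only [hAmul]
          have h0 := hmean0 f
          rw [← neg_inj, neg_neg, ← Finset.sum_neg_distrib]
          calc ∑ x, μ x * f x * (generator μ *ᵥ f) x
              = ∑ x, μ x * f x * (generator μ *ᵥ f) x - m * ∑ x, μ x * (generator μ *ᵥ f) x := by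
                rw [h0, mul_zero, sub_zero]
            _ = _ := by
                rw [Finset.mul_sum, ← Finset.sum_sub_distrib]
                refine Finset.sum_congr rfl fun x _ => ?_
                rw [← hss x]; ring
      _ = ∑ x, (s x * (f x - m)) * ∑ k, co k * (lam k * u k x) := by
          refine Finset.sum_congr rfl fun x _ => ?_
          congr 1
          have e : (fun y => s y * (f y - m)) = ∑ k, co k • (fun y => u k y) := by
            funext y; simp [hrepr y, Finset.sum_apply]
          rw [e, Matrix.mulVec_sum, Finset.sum_apply]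
          refine Finset.sum_congr rfl fun k _ => ?_
          rw [Matrix.mulVec_smul, hAh.mulVec_eigenvectorBasis k]
          simp [u, lam]
      _ = _ := by
          simp only [Finset.mul_sum]
          rw [Finset.sum_comm]
          refine Finset.sum_congr rfl fun k _ => ?_
          rw [show lam k * co k ^ 2 = lam k * co k * co k by ring]
          nth_rewrite 3 [hco]
          rw [Finset.mul_sum]
          exact Finset.sum_congr rfl fun x _ => by ring
  rw [hvar, hdir, Finset.mul_sum] at hf
  obtain ⟨k, -, hk⟩ := Finset.exists_lt_of_sum_lt hf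
  have hck : co k ≠ 0 := fun h0 => by simp [h0] at hk
  have hlk : lam k < c := lt_of_mul_lt_mul_right hk (sq_nonneg _)
  set φ := fun x => u k x / s x with hφ
  set mφ := ∑ x, μ x * φ x with hmφ
  have hgφ : generator μ *ᵥ φ = (-lam k) • φ := by
    funext x
    have := congrFun (hAh.mulVec_eigenvectorBasis k) x
    simp only [Matrix.mulVec, dotProduct, hA, Pi.smul_apply, smul_eq_mul] at this ⊢
    rw [← mul_right_inj' (hs0 x).ne', Finset.mul_sum]
    calc ∑ y, s x * (generator μ x y * φ y)
        = -∑ y, -(s x * generator μ x y / s y) * u k y := by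
          rw [← Finset.sum_neg_distrib]
          exact Finset.sum_congr rfl fun y _ => by simp only [hφ]; ring
      _ = _ := by
          rw [this]
          simp only [hφ, lam]
          field_simp [(hs0 x).ne']
          rfl
  have hlm : lam k * mφ = 0 := by
    have := hmean0 φ
    rw [hgφ] at this
    simp only [Pi.smul_apply, smul_eq_mul] at this
    rw [hmφ, Finset.mul_sum]
    rw [← neg_eq_zero, ← this, ← Finset.sum_neg_distrib]
    exact Finset.sum_congr rfl fun x _ => by ring
  refine ⟨fun x => φ x - mφ, lam k, hlk, ?_, ?_, ?_⟩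
  · intro h0
    refine hck ?_
    calc co k = ∑ x, μ x * φ x * (f x - m) := by
          refine Finset.sum_congr rfl fun x _ => ?_
          simp only [hφ]
          rw [← hss x]
          field_simp [(hs0 x).ne']
      _ = ∑ x, mφ * (μ x * (f x - m)) := by
          refine Finset.sum_congr rfl fun x _ => ?_
          have hx : φ x = mφ := sub_eq_zero.1 (congrFun h0 x)
          rw [hx]; ring
      _ = 0 := by
          rw [← Finset.mul_sum]
          simp [mul_sub, Finset.sum_sub_distrib, ← Finset.sum_mul, hsum, hm]
  · simp [mul_sub, Finset.sum_sub_distrib, ← Finset.sum_mul, hsum, hmφ]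
  · rw [show (fun x => φ x - mφ) = φ - (fun _ => mφ) from rfl, Matrix.mulVec_sub, hconst,
      sub_zero, hgφ]
    funext x
    simp only [Pi.smul_apply, Pi.sub_apply, smul_eq_mul]
    linear_combination -hlm

/-- Mixing at time `t` is impossible without a gap of order `1/t`. -/
theorem hasGap_of_mixed (hpos : ∀ x, 0 < μ x) (hsum : ∑ x, μ x = 1) {c t : ℝ} (ht : 0 ≤ t)
    (hct : c * t < Real.log 2) (hmix : MixedAt μ t) : HasGap μ c := by
  by_contra hng
  obtain ⟨e, l, hl, he, hmean, hge⟩ := exists_slow_mode hpos hsum hng
  have hexp : NormedSpace.exp (t • generator μ) *ᵥ e = Real.exp (t * -l) • e :=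
    exp_mulVec_eigen _ (by rw [Matrix.smul_mulVec, hge, smul_smul])
  obtain ⟨x, -, hx⟩ := Finset.exists_max_image (univ : Finset (Cube n)) (fun y => |e y|)
    Finset.univ_nonempty
  have hx0 : 0 < |e x| := by
    obtain ⟨y, hy⟩ := Function.ne_iff.1 he
    exact (abs_pos.2 hy).trans_le (hx y (Finset.mem_univ y))
  have h1 := congrFun hexp x
  simp only [Matrix.mulVec, dotProduct, Pi.smul_apply, smul_eq_mul] at h1
  have hbound : |Real.exp (t * -l) * e x| ≤ 1 / 2 * |e x| := by
    rw [← h1]
    calc |∑ y, NormedSpace.exp (t • generator μ) x y * e y|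
        = |∑ y, (NormedSpace.exp (t • generator μ) x y - μ y) * e y| := by
          simp [sub_mul, Finset.sum_sub_distrib, hmean]
      _ ≤ ∑ y, |NormedSpace.exp (t • generator μ) x y - μ y| * |e x| := by
          refine (Finset.abs_sum_le_sum_abs _ _).trans (Finset.sum_le_sum fun y _ => ?_)
          rw [abs_mul]
          exact mul_le_mul_of_nonneg_left (hx y (Finset.mem_univ y)) (abs_nonneg _)
      _ ≤ _ := by
          rw [← Finset.sum_mul]
          have := hmix x
          exact mul_le_mul_of_nonneg_right (by linarith) (abs_nonneg _)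
  rw [abs_mul, abs_of_pos (Real.exp_pos _)] at hbound
  have h2 : Real.exp (t * -l) ≤ 1 / 2 := le_of_mul_le_mul_right hbound hx0
  have h3 := (Real.le_log_iff_exp_le (by norm_num : (0:ℝ) < 1 / 2)).2 h2
  rw [one_div, Real.log_inv] at h3
  have h4 : t * l ≤ t * c := mul_le_mul_of_nonneg_left hl.le ht
  linarith

end

end Vale.Agent.P150
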