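import Mathlib
import Vale.Agent.P150.Poincare
import Vale.Agent.P150.Spectral

/-!
Iteration of the cavity inequality.
-/

namespace Vale.Agent.P150

open MeasureTheory Finset Real Filter Topology

noncomputable section

theorem fieldVar_scaled {n : ℕ} (hn : 0 < n) (b : ℝ) :
    fieldVar n (b / Real.sqrt n) = b ^ 2 := by
  have : (0 : ℝ) < n := by exact_mod_cast hn
  rw [fieldVar, div_pow, Real.sq_sqrt this.le]
  field_simp

/-- `n^(1/4)`. -/
def quartRoot (n : ℕ) : ℝ := Real.sqrt (Real.sqrt n)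

theorem quartRoot_pow (n : ℕ) : (n : ℝ) = quartRoot n ^ 4 := by
  rw [quartRoot, show (4 : ℕ) = 2 * 2 from rfl, pow_mul, Real.sq_sqrt (Real.sqrt_nonneg _),
    Real.sq_sqrt (Nat.cast_nonneg n)]

theorem tendsto_quartRoot : Tendsto quartRoot atTop atTop :=
  Real.tendsto_sqrt_atTop.comp (Real.tendsto_sqrt_atTop.comp tendsto_natCast_atTop_atTop)

/-- `exp (b^4/2)`. -/
def bEnv (b : ℝ) : ℝ := Real.exp ((b ^ 2) ^ 2 / 2)

/-- `exp (b^2/2)`, squared and scaled: the factor between two consecutive levels is `jump b * M`. -/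
def jump (b : ℝ) : ℝ := 64 * Real.exp (b ^ 2 / 2) ^ 2

/-- The constant in the atypicality bound. -/
def bBad (b : ℝ) : ℝ :=
  (3 * (b ^ 2) ^ 2 + b ^ 2 + 16 * Real.exp (b ^ 2 / 2) ^ 2) * bEnv b

theorem one_le_jump (b : ℝ) : 1 ≤ jump b := by
  have : 1 ≤ Real.exp (b ^ 2 / 2) ^ 2 := one_le_pow₀ (Real.one_le_exp (by positivity))
  unfold jump; linarith

theorem bBad_nonneg (b : ℝ) : 0 ≤ bBad b := by unfold bBad bEnv; positivity

/-- The growth factor of one step. -/
def kappa (η p u : ℝ) : ℝ :=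
  (1 - u) * (1 - 100 * Real.sqrt p) / ((1 + η) ^ 2 * (1 + 8 * η))

/-- The factor between two levels of `B`. -/
def grow (η : ℝ) : ℝ := (1 + 8 * η) * (1 + 16 * η)

theorem mass_le {n : ℕ} (a L B : ℝ) (hB : 0 ≤ B) : mass n a L B ≤ B := by
  have hb : ∀ g : Disorder n, ind (Good a L B g) * ovTwo (gibbsWith a g) ≤ B := by
    intro g
    by_cases h : Good a L B g
    · rw [ind_pos h, one_mul]; exact h.2
    · rw [ind_neg h, zero_mul]; exact hB
  refine (integral_mono (integrable_good_mul a L B (continuous_ovTwo a) (c := (n : ℝ) ^ 2) fun g => ?_)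
    (integrable_const B) hb).trans (by simp)
  rw [abs_of_nonneg (ovTwo_nonneg (isProb_gibbsWith a g))]
  exact ovTwo_le_sq (isProb_gibbsWith a g)

theorem mass_nonneg {n : ℕ} (a L B : ℝ) : 0 ≤ mass n a L B :=
  integral_nonneg fun g => mul_nonneg (ind_nonneg _) (ovTwo_nonneg (isProb_gibbsWith a g))

theorem chance_mono {n : ℕ} (a : ℝ) {L L' B B' : ℝ} (hL : L ≤ L') (hB : B ≤ B') :
    chance n a L B ≤ chance n a L' B' := by
  refine integral_mono (integrable_ind (measurableSet_good a L B))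
    (integrable_ind (measurableSet_good a L' B')) fun g => ?_
  by_cases h : Good a L B g
  · rw [ind_pos h, ind_pos (show Good a L' B' g from ⟨h.1.trans hL, h.2.trans hB⟩)]
  · rw [ind_neg h]; exact ind_nonneg _

theorem recursion {x : ℕ → ℝ} {ρ c : ℝ} (hρ : 0 ≤ ρ) (J : ℕ) (h0 : 0 ≤ x 0)
    (hstep : ∀ j < J, ρ * x j + c ≤ x (j + 1)) : c * ∑ k ∈ range J, ρ ^ k ≤ x J := by
  induction J with
  | zero => simpa using h0
  | succ J ih =>
    calc c * ∑ k ∈ range (J + 1), ρ ^ k = ρ * (c * ∑ k ∈ range J, ρ ^ k) + c := by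
          rw [geom_sum_succ]; ring
      _ ≤ ρ * x J + c := by
          linarith [mul_le_mul_of_nonneg_left (ih fun j hj => hstep j (by omega)) hρ]
      _ ≤ _ := hstep J (by omega)

theorem chance_bound {n J : ℕ} {b η M p L₀ B₀ r : ℝ} (hb : b ≠ 0) (hr : 1 ≤ r)
    (hn : (n : ℝ) = r ^ 4) (hη : 0 < η) (hη1 : η ≤ 1 / 16) (hnη : 1 ≤ η * n) (hM : 1 ≤ M)
    (hp : bBad b / (η ^ 2 * r) + 16 * Real.exp (b ^ 2 / 2) ^ 2 * bEnv b / M ≤ p)
    (hp0 : 0 < p) (hp1 : 100 * Real.sqrt p < 1) (hL₀ : 1 ≤ L₀) (hB₀ : 0 ≤ B₀) (hJ : 1 ≤ J)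
    (hLr : L₀ * (jump b * M) ^ J ≤ r ^ 9) :
    chance n (b / Real.sqrt n) L₀ B₀ ≤ 1 / (1 - p) *
      ((1 + 8 * η) * (B₀ / n * grow η ^ J / ∑ k ∈ range J, (b ^ 2 * kappa η p (1 / n)) ^ k) +
        2 * bEnv b * (b ^ 2) ^ 3 * (r ^ 2 / n) + B₀ / n * grow η ^ J * (bBad b / (η ^ 2 * r))) := by
  set a := b / Real.sqrt n with ha
  have hn0' : (0 : ℝ) < n := by rw [hn]; positivity
  have hn0 : 0 < n := by exact_mod_cast hn0'
  have ha0 : a ≠ 0 := div_ne_zero hb (by positivity)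
  have hV : fieldVar n a = b ^ 2 := fieldVar_scaled hn0 b
  have hT : meanCosh n a = Real.exp (b ^ 2 / 2) := by rw [meanCosh, hV]
  have hK : envC n a = bEnv b := by rw [envC, hV, bEnv]
  have hC : badC n a = bBad b := by rw [badC, hV, hT, hK, bBad]
  have hq1 : 1 ≤ grow η := by
    unfold grow; exact one_le_mul_of_one_le_of_one_le (by linarith) (by linarith)
  have hj1 : 1 ≤ jump b * M := one_le_mul_of_one_le_of_one_le (one_le_jump b) hM
  set Lj := fun j : ℕ => L₀ * (jump b * M) ^ j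
  set Bj := fun j : ℕ => B₀ * grow η ^ j
  set π₀ := chance n a L₀ B₀
  set ρ := b ^ 2 * kappa η p (1 / n) with hρ
  set err := (2 * bEnv b * (b ^ 2) ^ 3 * r ^ 2 + Bj J * (bBad b / (η ^ 2 * r))) with herr
  have h1n : 1 / (n : ℝ) < 1 + 0 := by
    rw [add_zero, div_lt_one hn0', hn]
    have h2 : 1 < r ∨ r = 1 := (lt_or_eq_of_le hr).imp id Eq.symm
    rcases h2 with h2 | h2
    · exact one_lt_pow₀ h2 (by norm_num)
    · rw [hn, h2] at hnη; norm_num at hnη; linarith
  have hp1' : p < 1 := by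
    have hs : Real.sqrt p < 1 := by linarith [Real.sqrt_nonneg p]
    have := Real.sq_sqrt hp0.le
    nlinarith [Real.sqrt_nonneg p]
  have hρ0 : 0 < ρ := by
    rw [hρ, kappa]
    have : 0 < 1 - 1 / (n : ℝ) := by linarith
    have : 0 < 1 - 100 * Real.sqrt p := by linarith
    positivity
  have hstep : ∀ j < J, ρ * mass n a (Lj j) (Bj j) +
      ((n : ℝ) * (1 - p) * π₀ - err) / (1 + 8 * η) ≤ mass n a (Lj (j + 1)) (Bj (j + 1)) := by
    intro j hj
    have hLjr : Lj j * M ≤ r ^ 9 := by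
      refine le_trans ?_ hLr
      calc L₀ * (jump b * M) ^ j * M ≤ L₀ * (jump b * M) ^ j * (jump b * M) := by
            gcongr
            exact le_mul_of_one_le_left (by linarith) (one_le_jump b)
        _ = L₀ * (jump b * M) ^ (j + 1) := by ring
        _ ≤ _ := mul_le_mul_of_nonneg_left (pow_le_pow_right₀ hj1 hj) (by linarith)
    have hLj1 : 1 ≤ Lj j := one_le_mul_of_one_le_of_one_le hL₀ (one_le_pow₀ hj1)
    have hBj0 : 0 ≤ Bj j := mul_nonneg hB₀ (pow_nonneg (by linarith) _)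
    have h := cavity_step (n := n) (a := a) (η := η) (r := r) (L := Lj j * M)
      (B := Bj j * (1 + 16 * η)) (M := M) (p := p) ha0 hr hn hη hη1 hnη
      (one_le_mul_of_one_le_of_one_le hLj1 hM) hLjr (mul_nonneg hBj0 (by linarith))
      (by linarith) (by
        rw [mul_div_cancel_right₀ _ (by linarith : M ≠ 0)]
        have : Lj j ≤ Lj j * M := le_mul_of_one_le_right (by linarith) hM
        exact this.trans (hLjr.trans (pow_le_pow_right₀ hr (by norm_num))))
      (by rw [hC, hT, hK]; exact hp) hp0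
    rw [mul_div_cancel_right₀ _ (by linarith : M ≠ 0),
      mul_div_cancel_right₀ _ (by linarith : (1 + 16 * η) ≠ 0), hV, hT, hK, hC] at h
    rw [show 64 * Real.exp (b ^ 2 / 2) ^ 2 * (Lj j * M) = Lj (j + 1) by
        simp only [Lj, jump]; ring,
      show Bj j * (1 + 16 * η) * (1 + 8 * η) = Bj (j + 1) by simp only [Bj, grow]; ring] at h
    have hmono : π₀ ≤ chance n a (Lj j) (Bj j) :=
      chance_mono a (le_mul_of_one_le_right (by linarith) (one_le_pow₀ hj1))
        (le_mul_of_one_le_right hB₀ (one_le_pow₀ hq1))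
    have herr' : Bj j * (1 + 16 * η) * (bBad b / (η ^ 2 * r)) ≤
        Bj J * (bBad b / (η ^ 2 * r)) := by
      refine mul_le_mul_of_nonneg_right ?_ (div_nonneg (bBad_nonneg b) (by positivity))
      simp only [Bj]
      calc B₀ * grow η ^ j * (1 + 16 * η) ≤ B₀ * grow η ^ j * grow η := by
            gcongr
            unfold grow
            exact le_mul_of_one_le_left (by linarith) (by linarith)
        _ = B₀ * grow η ^ (j + 1) := by ring
        _ ≤ _ := mul_le_mul_of_nonneg_left (pow_le_pow_right₀ hq1 hj) hB₀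
    have hm := mul_le_mul_of_nonneg_left hmono
      (show (0 : ℝ) ≤ (n : ℝ) * (1 - p) from mul_nonneg hn0'.le (by linarith))
    have e : (1 - 1 / (n : ℝ)) * b ^ 2 * (1 - 100 * Real.sqrt p) / (1 + η) ^ 2 =
        ρ * (1 + 8 * η) := by
      rw [hρ, kappa]; field_simp
    rw [e] at h
    refine le_of_mul_le_mul_left ?_ (show (0 : ℝ) < 1 + 8 * η by linarith)
    rw [mul_add, mul_div_cancel₀ _ (by linarith : (1 + 8 * η) ≠ 0), herr]
    linarith
  have hrec := (recursion hρ0.le J (mass_nonneg a (Lj 0) (Bj 0)) hstep).trans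
    (mass_le a (Lj J) (Bj J) (mul_nonneg hB₀ (pow_nonneg (by linarith) _)))
  set Sρ := ∑ k ∈ range J, ρ ^ k with hSρ
  have hSρ0 : 0 < Sρ := Finset.sum_pos (fun k _ => pow_pos hρ0 k) ⟨0, Finset.mem_range.2 hJ⟩
  rw [← le_div_iff₀ hSρ0, div_le_iff₀ (by linarith)] at hrec
  have hfin : (n : ℝ) * (1 - p) * π₀ ≤ Bj J / Sρ * (1 + 8 * η) + err := by linarith
  rw [one_div, ← div_eq_inv_mul, le_div_iff₀ (by linarith)]
  refine le_of_mul_le_mul_left ?_ hn0'
  refine le_trans (le_of_eq (by ring)) (hfin.trans (le_of_eq ?_))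
  simp only [herr, Bj]
  field_simp
  ring

theorem measure_hasGap_le {n : ℕ} {a c : ℝ} (hc : 0 < c) :
    (disorderLaw n).real {g | HasGap (gibbsWith a g) c} ≤
      chance n a (33 * (n : ℝ) ^ 2 / min c 1 ^ 2) ((n : ℝ) / c) := by
  rw [chance]
  have e : ∫ g, ind (Good a (33 * (n : ℝ) ^ 2 / min c 1 ^ 2) ((n : ℝ) / c) g) ∂disorderLaw n =
      (disorderLaw n).real {g | Good a (33 * (n : ℝ) ^ 2 / min c 1 ^ 2) ((n : ℝ) / c) g} := by
    rw [← integral_indicator_one (measurableSet_good a _ _)]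
    congr 1
  rw [e]
  refine measureReal_mono (fun g hg => ?_)
  have hμ := isProb_gibbsWith a g
  have hs := spinSymm_gibbsWith a g
  exact ⟨gap_ovFour hμ hs (lt_min hc one_pos) (min_le_right c 1)
    (hasGap_mono hμ (min_le_left c 1) hg), gap_ovTwo hμ hs hc hg⟩

theorem exists_depth {b : ℝ} (hb : 0 < b) {ε : ℝ} (hε : 0 < ε) :
    ∃ J, 1 ≤ J ∧ 1 / ∑ k ∈ range J, (b ^ 2) ^ k ≤ max 0 (1 - b ^ 2) + ε := by
  rcases lt_or_ge (b ^ 2) 1 with h | h
  · have ht : Tendsto (fun J : ℕ => 1 / ∑ k ∈ range J, (b ^ 2) ^ k) atTop (𝓝 (1 - b ^ 2)) := by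
      have h1 := (hasSum_geometric_of_lt_one (sq_nonneg b) h).tendsto_sum_nat
      have h2 := h1.inv₀ (inv_ne_zero (by linarith))
      rw [inv_inv] at h2
      simpa [one_div] using h2
    obtain ⟨J, hJ1, hJ2⟩ := ((eventually_ge_atTop 1).and
      (ht.eventually (eventually_le_nhds (show 1 - b ^ 2 < max 0 (1 - b ^ 2) + ε by
        linarith [le_max_right 0 (1 - b ^ 2)])))).exists
    exact ⟨J, hJ1, hJ2⟩
  · obtain ⟨N, hN⟩ := exists_nat_gt (1 / ε)
    have hN0 : 0 < (N : ℝ) := lt_trans (by positivity) hN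
    refine ⟨N, by exact_mod_cast hN0, ?_⟩
    have hsum : (N : ℝ) ≤ ∑ k ∈ range N, (b ^ 2) ^ k := by
      calc (N : ℝ) = ∑ _k ∈ range N, (1 : ℝ) := by simp
        _ ≤ _ := Finset.sum_le_sum fun k _ => one_le_pow₀ h
    refine (div_le_div_of_nonneg_left zero_le_one hN0 hsum).trans ?_
    rw [div_lt_iff₀ hε] at hN
    rw [div_le_iff₀ hN0]
    nlinarith [mul_nonneg (le_max_left 0 (1 - b ^ 2)) hN0.le]

theorem gap_limit {b c ε : ℝ} (hb : 0 < b) (hc : 0 < c) (hε : 0 < ε) :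
    ∀ᶠ n : ℕ in atTop, (disorderLaw n).real {g | HasGap (gibbs b g) c} ≤
      max 0 (1 - b ^ 2) / c + ε := by
  obtain ⟨J, hJ, hJs⟩ := exists_depth hb (show 0 < ε * c / 2 by positivity)
  set Φ := fun δ : ℝ => 1 / (1 - δ) * ((1 + 8 * δ) * (1 / c * grow δ ^ J /
    ∑ k ∈ range J, (b ^ 2 * kappa δ δ δ) ^ k) + δ) with hΦ
  have hΦ0 : Φ 0 = 1 / c / ∑ k ∈ range J, (b ^ 2) ^ k := by simp [hΦ, grow, kappa]
  have hkc : ContinuousAt (fun δ : ℝ => kappa δ δ δ) 0 := by
    unfold kappa; fun_prop (disch := norm_num)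
  have hden : (∑ k ∈ range J, (b ^ 2 * kappa 0 0 0) ^ k) ≠ 0 := by
    refine (Finset.sum_pos (fun k _ => pow_pos ?_ k) ⟨0, Finset.mem_range.2 hJ⟩).ne'
    simp [kappa]; positivity
  have hΦc : ContinuousAt Φ 0 := by
    refine (continuousAt_const.div (by fun_prop) (by norm_num)).mul (((by fun_prop :
      ContinuousAt (fun δ : ℝ => 1 + 8 * δ) 0).mul ((ContinuousAt.div
        (by unfold grow; fun_prop) ?_ hden))).add continuousAt_id)
    exact tendsto_finsetSum _ fun k _ => (continuousAt_const.mul hkc).pow k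
  have htarget : Φ 0 < max 0 (1 - b ^ 2) / c + ε := by
    rw [hΦ0, div_div, mul_comm, ← div_div]
    calc 1 / (∑ k ∈ range J, (b ^ 2) ^ k) / c ≤ (max 0 (1 - b ^ 2) + ε * c / 2) / c := by
          gcongr
      _ < _ := by rw [add_div, add_lt_add_iff_left]; field_simp; norm_num
  obtain ⟨δ, ⟨hδΦ, hδk⟩, hδ0, hδ1⟩ :
      ∃ δ, (Φ δ < max 0 (1 - b ^ 2) / c + ε ∧ 100 * Real.sqrt δ < 1) ∧
        0 < δ ∧ δ ≤ 1 / 16 := by
    have e1 := hΦc.eventually_lt continuousAt_const htarget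
    have e2 : ∀ᶠ δ in 𝓝 (0 : ℝ), 100 * Real.sqrt δ < 1 :=
      ContinuousAt.eventually_lt (by fun_prop) continuousAt_const (by simp)
    have e3 : ∀ᶠ δ in 𝓝[>] (0 : ℝ), δ ∈ Set.Ioc (0 : ℝ) (1 / 16) :=
      Ioc_mem_nhdsGT (by norm_num)
    exact (((e1.and e2).filter_mono nhdsWithin_le_nhds).and e3).exists
  obtain ⟨M, hM1, hM⟩ : ∃ M : ℝ, 1 ≤ M ∧
      16 * Real.exp (b ^ 2 / 2) ^ 2 * bEnv b / M ≤ δ / 2 := by
    refine ⟨max 1 (16 * Real.exp (b ^ 2 / 2) ^ 2 * bEnv b / (δ / 2)), le_max_left _ _, ?_⟩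
    rw [div_le_iff₀ (lt_of_lt_of_le one_pos (le_max_left _ _))]
    have := mul_le_mul_of_nonneg_left (le_max_right 1
      (16 * Real.exp (b ^ 2 / 2) ^ 2 * bEnv b / (δ / 2))) (half_pos hδ0).le
    rwa [mul_div_cancel₀ _ (by positivity)] at this
  have hr := tendsto_quartRoot
  have hinv : ∀ C : ℝ, Tendsto (fun n => C / quartRoot n) atTop (𝓝 0) := fun C =>
    tendsto_const_nhds.div_atTop hr
  have h2 : Tendsto (fun n => quartRoot n ^ 2 / (n : ℝ)) atTop (𝓝 0) := by
    refine squeeze_zero' (.of_forall fun n => by positivity) ?_ (hinv 1)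
    filter_upwards [hr.eventually_ge_atTop 1] with n hn
    rw [quartRoot_pow n, div_le_div_iff₀ (by positivity) (by linarith)]
    rw [one_mul, ← pow_succ]
    exact pow_le_pow_right₀ hn (by norm_num)
  have he : Tendsto (fun n : ℕ => 2 * bEnv b * (b ^ 2) ^ 3 * (quartRoot n ^ 2 / n) +
      1 / c * grow δ ^ J * (bBad b / δ ^ 2 / quartRoot n)) atTop (𝓝 0) := by
    simpa using (h2.const_mul (2 * bEnv b * (b ^ 2) ^ 3)).add
      ((hinv (bBad b / δ ^ 2)).const_mul (1 / c * grow δ ^ J))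
  filter_upwards [hr.eventually_ge_atTop 1, (hinv (bBad b / δ ^ 2)).eventually
    (eventually_le_nhds (half_pos hδ0)), he.eventually (eventually_le_nhds hδ0),
    hr.eventually_ge_atTop (33 / min c 1 ^ 2 * (jump b * M) ^ J),
    hr.eventually_ge_atTop (1 / δ)] with n hn1 hC herr hLbig hbig
  set r := quartRoot n
  have hn := quartRoot_pow n
  have hn0' : (0 : ℝ) < n := by rw [hn]; positivity
  have hr4 : r ≤ (n : ℝ) := by rw [hn]; exact le_self_pow₀ hn1 (by norm_num)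
  have hnδ : 1 ≤ δ * n := by
    rw [← div_le_iff₀' hδ0]
    exact hbig.trans hr4
  have hp : bBad b / (δ ^ 2 * r) + 16 * Real.exp (b ^ 2 / 2) ^ 2 * bEnv b / M ≤ δ := by
    rw [← div_div]; linarith
  have hmin : 0 < min c 1 := lt_min hc one_pos
  have hn1' : (1 : ℝ) ≤ n := hn1.trans hr4
  have hL1 : 1 ≤ 33 * (n : ℝ) ^ 2 / min c 1 ^ 2 := by
    rw [one_le_div (by positivity)]
    calc min c 1 ^ 2 ≤ 1 := pow_le_one₀ hmin.le (min_le_right c 1)
      _ ≤ 33 * (n : ℝ) ^ 2 := by linarith [one_le_pow₀ hn1' (n := 2)]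
  refine (measure_hasGap_le hc).trans ?_
  refine (chance_bound (J := J) (r := r) (M := M) (p := δ) hb.ne' hn1 hn hδ0 hδ1 hnδ hM1 hp hδ0
    hδk hL1 (div_nonneg hn0'.le hc.le) hJ ?_).trans ?_
  · calc 33 * (n : ℝ) ^ 2 / min c 1 ^ 2 * (jump b * M) ^ J
        = r ^ 8 * (33 / min c 1 ^ 2 * (jump b * M) ^ J) := by rw [hn]; ring
      _ ≤ r ^ 8 * r := mul_le_mul_of_nonneg_left hLbig (by positivity)
      _ = r ^ 9 := by ring
  · refine le_trans ?_ hδΦ.le
    simp only [hΦ]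
    have hn_inv : (n : ℝ) / c / n = 1 / c := by field_simp
    rw [hn_inv, ← div_div (bBad b) (δ ^ 2) r, add_assoc]
    have hu : 1 / (n : ℝ) ≤ δ := by rw [div_le_iff₀ hn0']; exact hnδ
    have hkpos : ∀ u, u ≤ δ → 0 < b ^ 2 * kappa δ δ u := by
      intro u hu
      unfold kappa
      have : 0 < 1 - u := by linarith
      have : 0 < 1 - 100 * Real.sqrt δ := by linarith
      positivity
    have hk : b ^ 2 * kappa δ δ δ ≤ b ^ 2 * kappa δ δ (1 / n) := by
      unfold kappa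
      have : 0 ≤ 1 - 100 * Real.sqrt δ := by linarith
      gcongr
    have hk0 := hkpos δ le_rfl
    have : 0 ≤ 1 / c * grow δ ^ J := by unfold grow; positivity
    have : 0 ≤ 1 / (1 - δ) := by
      have : 0 < 1 - δ := by linarith
      positivity
    have hs0 : 0 < ∑ k ∈ range J, (b ^ 2 * kappa δ δ δ) ^ k :=
      Finset.sum_pos (fun k _ => pow_pos hk0 k) ⟨0, Finset.mem_range.2 hJ⟩
    gcongr

theorem pow_ceil_le {x r θ : ℝ} {J : ℕ} (hx : 1 ≤ x) (hr : 1 ≤ r)
    (hJ : (J : ℝ) ≤ θ * Real.log r + 1) : x ^ J ≤ x * r ^ (θ * Real.log x) := by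
  have hx0 : 0 < x := by linarith
  have hl : 0 ≤ Real.log x := Real.log_nonneg hx
  rw [← Real.exp_log (pow_pos hx0 J), Real.log_pow, Real.rpow_def_of_pos (by linarith : 0 < r)]
  calc Real.exp (J * Real.log x) ≤ Real.exp (Real.log x + Real.log r * (θ * Real.log x)) := by
        refine Real.exp_le_exp.2 ?_
        nlinarith [mul_le_mul_of_nonneg_right hJ hl]
    _ = _ := by rw [Real.exp_add, Real.exp_log hx0]

theorem gap_poly {b : ℝ} (hb : 1 < b) :
    ∃ δ > (0 : ℝ),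
      Tendsto (fun n : ℕ => (disorderLaw n).real {g | HasGap (gibbs b g) ((n : ℝ) ^ (-δ))})
        atTop (𝓝 0) := by
  have hb2 : 1 < b ^ 2 := one_lt_pow₀ hb (by norm_num)
  -- choose the tolerance
  have hcont : ContinuousAt (fun η : ℝ => grow η / (b ^ 2 * kappa η η η)) 0 := by
    refine ContinuousAt.div (by unfold grow; fun_prop)
      (continuousAt_const.mul (by unfold kappa; fun_prop (disch := norm_num))) ?_
    simp [kappa]; positivity
  obtain ⟨η, ⟨hηq, hηk⟩, hη0, hη1⟩ :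
      ∃ η, (grow η / (b ^ 2 * kappa η η η) < 1 ∧ 100 * Real.sqrt η < 1) ∧
        0 < η ∧ η ≤ 1 / 16 := by
    have e1 := hcont.eventually_lt continuousAt_const
      (show grow 0 / (b ^ 2 * kappa 0 0 0) < 1 by
        simp [grow, kappa]; exact inv_lt_one_of_one_lt₀ hb2)
    have e2 : ∀ᶠ δ in 𝓝 (0 : ℝ), 100 * Real.sqrt δ < 1 :=
      ContinuousAt.eventually_lt (by fun_prop) continuousAt_const (by simp)
    have e3 : ∀ᶠ δ in 𝓝[>] (0 : ℝ), δ ∈ Set.Ioc (0 : ℝ) (1 / 16) :=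
      Ioc_mem_nhdsGT (by norm_num)
    exact (((e1.and e2).filter_mono nhdsWithin_le_nhds).and e3).exists
  obtain ⟨M, hM1, hM⟩ : ∃ M : ℝ, 1 ≤ M ∧
      16 * Real.exp (b ^ 2 / 2) ^ 2 * bEnv b / M ≤ η / 2 := by
    refine ⟨max 1 (16 * Real.exp (b ^ 2 / 2) ^ 2 * bEnv b / (η / 2)), le_max_left _ _, ?_⟩
    rw [div_le_iff₀ (lt_of_lt_of_le one_pos (le_max_left _ _))]
    have := mul_le_mul_of_nonneg_left (le_max_right 1
      (16 * Real.exp (b ^ 2 / 2) ^ 2 * bEnv b / (η / 2))) (half_pos hη0).le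
    rwa [mul_div_cancel₀ _ (by positivity)] at this
  set ρ := b ^ 2 * kappa η η η with hρ
  have hρ0 : 0 < ρ := by
    rw [hρ, kappa]
    have : 0 < 1 - η := by linarith
    have : 0 < 1 - 100 * Real.sqrt η := by linarith
    positivity
  set q := grow η
  have hq1 : 1 ≤ q := one_le_mul_of_one_le_of_one_le (by linarith) (by linarith)
  have hqρ : q < ρ := by rwa [div_lt_one hρ0] at hηq
  set lam := Real.log (ρ / q)
  have hlam : 0 < lam := Real.log_pos (by rw [one_lt_div (by linarith)]; exact hqρ)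
  set Mt := jump b * M
  have hMt : 1 ≤ Mt := one_le_mul_of_one_le_of_one_le (one_le_jump b) hM1
  set D := 8 + 5 / lam * (Real.log Mt + Real.log q)
  have hD : 8 ≤ D := le_add_of_nonneg_right (mul_nonneg (by positivity)
    (add_nonneg (Real.log_nonneg hMt) (Real.log_nonneg hq1)))
  set δ := 1 / (2 * D)
  have hδ : 0 < δ := by positivity
  have hδD : δ * D = 1 / 2 := by simp only [δ]; field_simp
  refine ⟨δ, hδ, ?_⟩
  set θ := 5 * δ / lam
  have hθ : 0 < θ := by positivity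
  have hq0 : 0 < q := by linarith
  have hparts : 8 * δ + θ * Real.log Mt + θ * Real.log q = 1 / 2 := by
    rw [← hδD]; simp only [θ, D]; ring
  have hθq : 0 ≤ θ * Real.log q := mul_nonneg hθ.le (Real.log_nonneg hq1)
  have hθM : 0 ≤ θ * Real.log Mt := mul_nonneg hθ.le (Real.log_nonneg hMt)
  have hr := tendsto_quartRoot
  have hneg : ∀ (C s : ℝ), 0 < s →
      Tendsto (fun n => C * quartRoot n ^ (-s)) atTop (𝓝 0) := fun C s hs => by
    simpa using ((tendsto_rpow_neg_atTop hs).comp hr).const_mul C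
  refine squeeze_zero' (.of_forall fun n => measureReal_nonneg) ?_
    (g := fun n => 1 / (1 - η) * ((1 + 8 * η) * (ρ * quartRoot n ^ (-δ)) +
      2 * bEnv b * (b ^ 2) ^ 3 * quartRoot n ^ (-(1 : ℝ)) +
      q * (bBad b / η ^ 2) * quartRoot n ^ (-(1 / 2 : ℝ)))) ?_
  swap
  · simpa using (((((hneg ρ δ hδ).const_mul (1 + 8 * η))).add
      (hneg _ 1 one_pos)).add (hneg _ (1 / 2) (by norm_num))).const_mul (1 / (1 - η))
  have hinv : Tendsto (fun n => bBad b / η ^ 2 / quartRoot n) atTop (𝓝 0) :=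
    tendsto_const_nhds.div_atTop hr
  filter_upwards [hr.eventually_gt_atTop 1, hinv.eventually (eventually_le_nhds (half_pos hη0)),
    hr.eventually_ge_atTop (1 / η),
    ((tendsto_rpow_atTop (show (0 : ℝ) < 1 / 2 by norm_num)).comp hr).eventually_ge_atTop
      (33 * Mt)] with n hn1 hC hbig hLbig
  simp only [Function.comp] at hLbig
  set r := quartRoot n
  have hn := quartRoot_pow n
  have hr0 : 0 < r := by linarith
  have hn0' : (0 : ℝ) < n := by rw [hn]; positivity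
  have hr4 : r ≤ (n : ℝ) := by rw [hn]; exact le_self_pow₀ hn1.le (by norm_num)
  have hnη : 1 ≤ η * n := by
    rw [← div_le_iff₀' hη0]; exact hbig.trans hr4
  have hp : bBad b / (η ^ 2 * r) + 16 * Real.exp (b ^ 2 / 2) ^ 2 * bEnv b / M ≤ η := by
    rw [← div_div]; linarith
  set J := ⌈θ * Real.log r⌉₊ with hJdef
  have hlr : 0 < θ * Real.log r := mul_pos hθ (Real.log_pos hn1)
  have hJ : 1 ≤ J := Nat.ceil_pos.2 hlr
  have hJhi : (J : ℝ) ≤ θ * Real.log r + 1 := (Nat.ceil_lt_add_one hlr.le).le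
  have hc : (n : ℝ) ^ (-δ) = r ^ (-(4 * δ)) := by
    rw [hn, ← Real.rpow_natCast, ← Real.rpow_mul hr0.le]
    congr 1
    push_cast
    ring
  have hc1 : (n : ℝ) ^ (-δ) ≤ 1 := by
    rw [hc]; exact Real.rpow_le_one_of_one_le_of_nonpos hn1.le (by linarith)
  have hc0 : 0 < (n : ℝ) ^ (-δ) := by positivity
  have hL : 33 * (n : ℝ) ^ 2 / min ((n : ℝ) ^ (-δ)) 1 ^ 2 = 33 * r ^ (8 + 8 * δ) := by
    rw [min_eq_left hc1, hc, ← Real.rpow_natCast (r ^ (-(4 * δ))) 2, ← Real.rpow_mul hr0.le,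
      mul_div_assoc, hn, ← pow_mul, ← Real.rpow_natCast r (4 * 2), ← Real.rpow_sub hr0]
    congr 2
    push_cast
    ring
  have hn1' : (1 : ℝ) ≤ n := hn1.le.trans hr4
  refine (measure_hasGap_le hc0).trans ?_
  refine (chance_bound (J := J) (r := r) (M := M) (p := η) (by linarith : b ≠ 0) hn1.le hn hη0 hη1
    hnη hM1 hp hη0 hηk ?_ (div_nonneg hn0'.le hc0.le) hJ ?_).trans ?_
  · rw [hL]
    have := Real.one_le_rpow hn1.le (show (0:ℝ) ≤ 8 + 8 * δ by linarith)
    linarith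
  · rw [hL]
    calc 33 * r ^ (8 + 8 * δ) * Mt ^ J ≤ 33 * r ^ (8 + 8 * δ) * (Mt * r ^ (θ * Real.log Mt)) :=
          mul_le_mul_of_nonneg_left (pow_ceil_le hMt hn1.le hJhi) (by positivity)
      _ = 33 * Mt * r ^ (8 + 8 * δ + θ * Real.log Mt) := by
          rw [Real.rpow_add hr0 (8 + 8 * δ)]; ring
      _ ≤ r ^ (1 / 2 : ℝ) * r ^ (8 + 1 / 2 : ℝ) :=
          mul_le_mul hLbig (Real.rpow_le_rpow_of_exponent_le hn1.le (by linarith))
            (by positivity) (by positivity)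
      _ = r ^ 9 := by rw [← Real.rpow_add hr0, ← Real.rpow_natCast]; norm_num
  · have hB : (n : ℝ) / (n : ℝ) ^ (-δ) / n = r ^ (4 * δ) := by
      rw [div_right_comm, div_self hn0'.ne', hc, Real.rpow_neg hr0.le, one_div, inv_inv]
    rw [hB]
    have hu : 1 / (n : ℝ) ≤ η := by rw [div_le_iff₀ hn0']; exact hnη
    have hk : ρ ≤ b ^ 2 * kappa η η (1 / n) := by
      rw [hρ]
      unfold kappa
      have : 0 ≤ 1 - 100 * Real.sqrt η := by linarith
      gcongr
    have hsum : ρ ^ J / ρ ≤ ∑ k ∈ range J, (b ^ 2 * kappa η η (1 / n)) ^ k := by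
      refine le_trans ?_ (Finset.single_le_sum
        (fun k _ => pow_nonneg (hρ0.le.trans hk) k) (Finset.mem_range.2 (show J - 1 < J by omega)))
      refine le_trans (le_of_eq ?_) (pow_le_pow_left₀ hρ0.le hk _)
      rw [div_eq_iff hρ0.ne', ← pow_succ, Nat.sub_add_cancel hJ]
    have hdecay : (q / ρ) ^ J ≤ r ^ (-(5 * δ)) := by
      rw [← Real.exp_log (pow_pos (div_pos hq0 hρ0) J), Real.log_pow,
        Real.rpow_def_of_pos hr0]
      refine Real.exp_le_exp.2 ?_
      have : Real.log (q / ρ) = -lam := by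
        simp only [lam]; rw [← Real.log_inv, inv_div]
      rw [this]
      have := mul_le_mul_of_nonneg_right (Nat.le_ceil (θ * Real.log r)) hlam.le
      rw [← hJdef] at this
      have e : θ * Real.log r * lam = 5 * δ * Real.log r := by
        simp only [θ]; field_simp
      linarith
    have t1 : r ^ (4 * δ) * q ^ J / (∑ k ∈ range J, (b ^ 2 * kappa η η (1 / n)) ^ k) ≤
        ρ * r ^ (-δ) := by
      refine (div_le_div_of_nonneg_left (by positivity) (by positivity) hsum).trans ?_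
      calc r ^ (4 * δ) * q ^ J / (ρ ^ J / ρ) = ρ * (r ^ (4 * δ) * (q / ρ) ^ J) := by
            rw [div_pow]; field_simp
        _ ≤ ρ * (r ^ (4 * δ) * r ^ (-(5 * δ))) := by gcongr
        _ = _ := by rw [← Real.rpow_add hr0]; ring_nf
    have t2 : r ^ 2 / (n : ℝ) ≤ r ^ (-(1 : ℝ)) := by
      rw [hn, Real.rpow_neg_one, ← one_div, div_le_div_iff₀ (by positivity) hr0, one_mul,
        ← pow_succ]
      exact pow_le_pow_right₀ hn1.le (by norm_num)
    have t3 : r ^ (4 * δ) * q ^ J * (bBad b / (η ^ 2 * r)) ≤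
        q * (bBad b / η ^ 2) * r ^ (-(1 / 2 : ℝ)) := by
      calc r ^ (4 * δ) * q ^ J * (bBad b / (η ^ 2 * r))
          ≤ r ^ (4 * δ) * (q * r ^ (θ * Real.log q)) * (bBad b / (η ^ 2 * r)) := by
            have := bBad_nonneg b
            gcongr
            exact pow_ceil_le hq1 hn1.le hJhi
        _ = q * (bBad b / η ^ 2) * r ^ (4 * δ + θ * Real.log q - 1) := by
            rw [Real.rpow_sub hr0, Real.rpow_add hr0, Real.rpow_one]; ring
        _ ≤ _ := by
            have := bBad_nonneg b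
            gcongr
            · exact hn1.le
            · linarith
    have hb6 : 0 ≤ 2 * bEnv b * (b ^ 2) ^ 3 := by unfold bEnv; positivity
    have : 0 < 1 - η := by linarith
    gcongr

theorem mixing_poly {b : ℝ} (hb : 1 < b) :
    ∃ δ > (0 : ℝ),
      Tendsto (fun n : ℕ => (disorderLaw n).real {g | HasGap (gibbs b g) ((n : ℝ) ^ (-δ))})
        atTop (𝓝 0) ∧
      Tendsto (fun n : ℕ => (disorderLaw n).real
        {g | ∃ t : ℝ, 0 ≤ t ∧ t ≤ (n : ℝ) ^ δ ∧ MixedAt (gibbs b g) t}) atTop (𝓝 0) := by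
  obtain ⟨δ, hδ, hlim⟩ := gap_poly hb
  have hle : ∀ᶠ n : ℕ in atTop, (n : ℝ) ^ (-δ) * (n : ℝ) ^ (δ / 2) < Real.log 2 := by
    have h := ((tendsto_rpow_neg_atTop (half_pos hδ)).comp tendsto_natCast_atTop_atTop).eventually
      (eventually_lt_nhds (Real.log_pos one_lt_two))
    filter_upwards [h, eventually_gt_atTop 0] with n hn hn0
    simp only [Function.comp] at hn
    rwa [← Real.rpow_add (by exact_mod_cast hn0), show -δ + δ / 2 = -(δ / 2) by ring]
  refine ⟨δ / 2, half_pos hδ, ?_, ?_⟩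
  · refine squeeze_zero' (.of_forall fun n => measureReal_nonneg) ?_ hlim
    filter_upwards [eventually_ge_atTop 1] with n hn
    refine measureReal_mono fun g hg => ?_
    exact hasGap_mono (isProb_gibbsWith _ g)
      (Real.rpow_le_rpow_of_exponent_le (by exact_mod_cast hn) (by linarith)) hg
  · refine squeeze_zero' (.of_forall fun n => measureReal_nonneg) ?_ hlim
    filter_upwards [hle] with n hn
    refine measureReal_mono fun g hg => ?_
    obtain ⟨t, ht0, ht, hmix⟩ := hg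
    refine hasGap_of_mixed (gibbsWith_pos _ g) (isProb_gibbsWith _ g).2 ht0 ?_ hmix
    exact lt_of_le_of_lt (mul_le_mul_of_nonneg_left ht (by positivity)) hn

end

end Vale.Agent.P150
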